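import Mathlib

/-! Sorted sequences of 11 or 12 sizes. -/

namespace Vale.Agent.P302H8

open Finset

/-- `w` is a feasible dual weight for sizes `≥ s`. -/
structure DualOK (s : ℚ) (w : ℚ → ℝ) : Prop where
  nn : ∀ σ, 0 ≤ w σ
  zero : ∀ σ, σ < s → w σ = 0
  one : ∀ p, s ≤ p → w p ≤ 1
  two : ∀ p q, s ≤ p → p ≤ q → p + q ≤ 1 → w p + w q ≤ 1
  three : ∀ p q r, s ≤ p → p ≤ q → q ≤ r → p + q + r ≤ 1 → w p + w q + w r ≤ 1

theorem half_ok (s : ℚ) (hs : 1 / 4 < s) :
    DualOK s (fun σ => if σ < s then 0 else if σ ≤ 1 / 2 then 1 / 3 else 2 / 3) where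
  nn := by
    intro σ
    split_ifs <;> norm_num
  zero := by
    intro σ h
    rw [if_pos h]
  one := by
    intro p h
    split_ifs <;> norm_num
  two := by
    intro p q hp hpq h
    split_ifs <;> first | (exfalso; linarith) | norm_num
  three := by
    intro p q r hp hpq hqr h
    split_ifs <;> first | (exfalso; linarith) | norm_num

/-- three classes -/
theorem cls_ok (s u v : ℚ) (x y z : ℝ) (hx : 0 ≤ x) (hy : 0 ≤ y) (hz : 0 ≤ z) (hxy : x ≤ y)
    (hyz : y ≤ z) (hz2 : z ≤ 1 / 2) (hy3 : 3 * y ≤ 1) (hxxz : 2 * x + z ≤ 1)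
    (hs : 1 / 4 < s) (hsu : s ≤ u) (huv : u ≤ v)
    (h1 : ∀ p q r, s ≤ p → p ≤ q → q ≤ r → p + q + r ≤ 1 → v ≤ r → u ≤ q →
      (if p < s then 0 else if p < u then x else if p < v then y else z) +
      (if q < s then 0 else if q < u then x else if q < v then y else z) + z ≤ 1) :
    DualOK s (fun σ => if σ < s then 0 else if σ < u then x else if σ < v then y else z) where
  nn := by
    intro σ
    split_ifs <;> first | assumption | norm_num
  zero := by
    intro σ h
    rw [if_pos h]
  one := by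
    intro p h
    split_ifs <;> linarith
  two := by
    intro p q hp hpq h
    split_ifs <;> linarith
  three := by
    intro p q r hp hpq hqr h
    by_cases hr : v ≤ r
    · have e : (if r < s then 0 else if r < u then x else if r < v then y else z) = z := by
        rw [if_neg (by linarith), if_neg (by linarith), if_neg (by linarith)]
      rw [e]
      by_cases hq : u ≤ q
      · exact h1 p q r hp hpq hqr h hr hq
      · push Not at hq
        rw [if_neg (by linarith), if_pos (by linarith), if_neg (by linarith), if_pos hq]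
        linarith
    · push Not at hr
      have e : ∀ t, t ≤ r →
          (if t < s then 0 else if t < u then x else if t < v then y else z) ≤ y := by
        intro t ht
        split_ifs with a1 a2 a3
        · exact hy
        · exact hxy
        · exact le_rfl
        · exact absurd (lt_of_le_of_lt ht hr) a3
      have e1 := e p (hpq.trans hqr)
      have e2 := e q hqr
      have e3 := e r le_rfl
      linarith

theorem sum_lower {m : ℕ} (c : Fin m → ℚ) (s u v : ℚ) (x y z : ℝ) (hxy : x ≤ y) (hyz : y ≤ z)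
    (P Q : ℕ) (_hPQ : P ≤ Q) (h0 : ∀ i, s ≤ c i) (hu : ∀ i : Fin m, P ≤ i.val → u ≤ c i)
    (hv : ∀ i : Fin m, Q ≤ i.val → v ≤ c i) :
    ∑ i : Fin m, (if i.val < P then x else if i.val < Q then y else z) ≤
      ∑ i, (if c i < s then 0 else if c i < u then x else if c i < v then y else z) := by
  apply Finset.sum_le_sum
  intro i _
  rw [if_neg (not_lt.2 (h0 i))]
  by_cases h1 : i.val < P
  · rw [if_pos h1]
    split_ifs
    · exact le_rfl
    · exact hxy
    · exact hxy.trans hyz
  · rw [if_neg h1, if_neg (not_lt.2 (hu i (not_lt.1 h1)))]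
    by_cases h2 : i.val < Q
    · rw [if_pos h2]
      split_ifs
      · exact le_rfl
      · exact hyz
    · rw [if_neg h2, if_neg (not_lt.2 (hv i (not_lt.1 h2)))]

theorem two_half {m : ℕ} (c : Fin m → ℚ) (s : ℚ) (P : ℕ) (h0 : ∀ i, s ≤ c i)
    (hu : ∀ i : Fin m, P ≤ i.val → 1 / 2 < c i) :
    ∑ i : Fin m, (if i.val < P then (1 / 3 : ℝ) else 2 / 3) ≤
      ∑ i, (if c i < s then 0 else if c i ≤ 1 / 2 then 1 / 3 else 2 / 3) := by
  apply Finset.sum_le_sum
  intro i _
  rw [if_neg (not_lt.2 (h0 i))]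
  by_cases h1 : i.val < P
  · rw [if_pos h1]
    split_ifs <;> norm_num
  · rw [if_neg h1, if_neg (not_le.2 (hu i (not_lt.1 h1)))]

theorem seq12 (c : Fin 12 → ℚ) (hc : Monotone c) (hs : 1 / 4 < c 0)
    (hD : ∀ w, DualOK (c 0) w → ∑ i, w (c i) ≤ 4) :
    ∃ F : Fin 12 → Fin 5, ∀ b, ∑ i with F i = b, c i ≤ 1 := by
  have m : ∀ i j : Fin 12, i ≤ j → c i ≤ c j := fun i j h => hc h
  have g : ∀ i : Fin 12, c 0 ≤ c i := fun i => hc (Fin.zero_le i)
  have hhalf : c 11 ≤ 1 / 2 := by
    by_contra h
    push Not at h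
    have h1 := hD _ (half_ok (c 0) hs)
    have h2 := two_half c (c 0) 11 g (fun i hi => h.trans_le (m 11 i hi))
    have h3 : ∑ i : Fin 12, (if i.val < 11 then (1 / 3 : ℝ) else 2 / 3) = 13 / 3 := by
      simp [Fin.sum_univ_succ]
      norm_num
    linarith
  have h234 : c 2 + c 3 + c 4 ≤ 1 := by
    by_contra h
    push Not at h
    have k34 := m 3 4 (by decide)
    have hok := cls_ok (c 0) (c 2) (c 4) 0 (1 / 4) (1 / 2) (by norm_num) (by norm_num)
      (by norm_num) (by norm_num) (by norm_num) (by norm_num) (by norm_num) (by norm_num)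
      hs (m 0 2 (by decide)) (m 2 4 (by decide)) (by
        intro p q r hp hpq hqr hsum hr hq
        split_ifs <;> first | (exfalso; linarith) | norm_num)
    have h1 := hD _ hok
    have h2 := sum_lower c (c 0) (c 2) (c 4) 0 (1 / 4) (1 / 2) (by norm_num) (by norm_num) 2 4
      (by norm_num) g (fun i hi => m 2 i hi) (fun i hi => m 4 i hi)
    have h3 : ∑ i : Fin 12, (if i.val < 2 then (0 : ℝ) else if i.val < 4 then 1 / 4 else 1 / 2) =
        9 / 2 := by
      simp [Fin.sum_univ_succ]
      norm_num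
    linarith
  have h015 : c 0 + c 1 + c 5 ≤ 1 := by
    by_contra h
    push Not at h
    have hok := cls_ok (c 0) (c 1) (c 5) (1 / 4) (1 / 3) (1 / 2) (by norm_num) (by norm_num)
      (by norm_num) (by norm_num) (by norm_num) (by norm_num) (by norm_num) (by norm_num)
      hs (m 0 1 (by decide)) (m 1 5 (by decide)) (by
        intro p q r hp hpq hqr hsum hr hq
        exfalso
        linarith)
    have h1 := hD _ hok
    have h2 := sum_lower c (c 0) (c 1) (c 5) (1 / 4) (1 / 3) (1 / 2) (by norm_num) (by norm_num)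
      1 5 (by norm_num) g (fun i hi => m 1 i hi) (fun i hi => m 5 i hi)
    have h3 : ∑ i : Fin 12, (if i.val < 1 then (1 / 4 : ℝ) else if i.val < 5 then 1 / 3
        else 1 / 2) = 61 / 12 := by
      simp [Fin.sum_univ_succ]
      norm_num
    linarith
  refine ⟨![0, 0, 1, 1, 1, 0, 2, 3, 4, 4, 3, 2], ?_⟩
  have k : ∀ i, c i ≤ 1 / 2 := fun i => (m i 11 (Fin.le_last i)).trans hhalf
  intro b
  fin_cases b
  · rw [show (univ.filter fun i : Fin 12 => (![0, 0, 1, 1, 1, 0, 2, 3, 4, 4, 3, 2] :
      Fin 12 → Fin 5) i = (⟨0, by norm_num⟩ : Fin 5)) = {0, 1, 5} by decide,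
      Finset.sum_insert (by decide), Finset.sum_insert (by decide), Finset.sum_singleton]
    linarith
  · rw [show (univ.filter fun i : Fin 12 => (![0, 0, 1, 1, 1, 0, 2, 3, 4, 4, 3, 2] :
      Fin 12 → Fin 5) i = (⟨1, by norm_num⟩ : Fin 5)) = {2, 3, 4} by decide,
      Finset.sum_insert (by decide), Finset.sum_insert (by decide), Finset.sum_singleton]
    linarith
  · rw [show (univ.filter fun i : Fin 12 => (![0, 0, 1, 1, 1, 0, 2, 3, 4, 4, 3, 2] :
      Fin 12 → Fin 5) i = (⟨2, by norm_num⟩ : Fin 5)) = {6, 11} by decide,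
      Finset.sum_insert (by decide), Finset.sum_singleton]
    linarith [k 6, k 11]
  · rw [show (univ.filter fun i : Fin 12 => (![0, 0, 1, 1, 1, 0, 2, 3, 4, 4, 3, 2] :
      Fin 12 → Fin 5) i = (⟨3, by norm_num⟩ : Fin 5)) = {7, 10} by decide,
      Finset.sum_insert (by decide), Finset.sum_singleton]
    linarith [k 7, k 10]
  · rw [show (univ.filter fun i : Fin 12 => (![0, 0, 1, 1, 1, 0, 2, 3, 4, 4, 3, 2] :
      Fin 12 → Fin 5) i = (⟨4, by norm_num⟩ : Fin 5)) = {8, 9} by decide,
      Finset.sum_insert (by decide), Finset.sum_singleton]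
    linarith [k 8, k 9]

theorem seq11 (c : Fin 11 → ℚ) (hc : Monotone c) (hs : 1 / 4 < c 0) (hH : c 1 + c 10 ≤ 1)
    (hD : ∀ w, DualOK (c 0) w → ∑ i, w (c i) ≤ 4) :
    ∃ F : Fin 11 → Fin 5, ∀ b, ∑ i with F i = b, c i ≤ 1 := by
  have m : ∀ i j : Fin 11, i ≤ j → c i ≤ c j := fun i j h => hc h
  have g : ∀ i : Fin 11, c 0 ≤ c i := fun i => hc (Fin.zero_le i)
  have hhalf : c 9 ≤ 1 / 2 := by
    by_contra h
    push Not at h
    have h1 := hD _ (half_ok (c 0) hs)
    have h2 := two_half c (c 0) 9 g (fun i hi => h.trans_le (m 9 i hi))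
    have h3 : ∑ i : Fin 11, (if i.val < 9 then (1 / 3 : ℝ) else 2 / 3) = 13 / 3 := by
      simp [Fin.sum_univ_succ]
      norm_num
    linarith
  have h012 : c 0 + c 1 + c 2 ≤ 1 := by
    by_contra h
    push Not at h
    have k12 := m 1 2 (by decide)
    have hok := cls_ok (c 0) (c 2) (c 2) 0 (1 / 4) (1 / 2) (by norm_num) (by norm_num)
      (by norm_num) (by norm_num) (by norm_num) (by norm_num) (by norm_num) (by norm_num)
      hs (m 0 2 (by decide)) le_rfl (by
        intro p q r hp hpq hqr hsum hr hq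
        exfalso
        linarith)
    have h1 := hD _ hok
    have h2 := sum_lower c (c 0) (c 2) (c 2) 0 (1 / 4) (1 / 2) (by norm_num) (by norm_num) 2 2
      (by norm_num) g (fun i hi => m 2 i hi) (fun i hi => m 2 i hi)
    have h3 : ∑ i : Fin 11, (if i.val < 2 then (0 : ℝ) else if i.val < 2 then 1 / 4 else 1 / 2) =
        9 / 2 := by
      simp [Fin.sum_univ_succ]
      norm_num
    linarith
  have k : ∀ i : Fin 11, i ≤ 9 → c i ≤ 1 / 2 := fun i hi => (m i 9 hi).trans hhalf
  by_cases h310 : c 3 + c 10 ≤ 1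
  · refine ⟨![0, 0, 0, 1, 2, 3, 4, 4, 3, 2, 1], ?_⟩
    intro b
    fin_cases b
    · rw [show (univ.filter fun i : Fin 11 => (![0, 0, 0, 1, 2, 3, 4, 4, 3, 2, 1] :
        Fin 11 → Fin 5) i = (⟨0, by norm_num⟩ : Fin 5)) = {0, 1, 2} by decide,
        Finset.sum_insert (by decide), Finset.sum_insert (by decide), Finset.sum_singleton]
      linarith
    · rw [show (univ.filter fun i : Fin 11 => (![0, 0, 0, 1, 2, 3, 4, 4, 3, 2, 1] :
        Fin 11 → Fin 5) i = (⟨1, by norm_num⟩ : Fin 5)) = {3, 10} by decide,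
        Finset.sum_insert (by decide), Finset.sum_singleton]
      linarith
    · rw [show (univ.filter fun i : Fin 11 => (![0, 0, 0, 1, 2, 3, 4, 4, 3, 2, 1] :
        Fin 11 → Fin 5) i = (⟨2, by norm_num⟩ : Fin 5)) = {4, 9} by decide,
        Finset.sum_insert (by decide), Finset.sum_singleton]
      linarith [k 4 (by decide), k 9 (by decide)]
    · rw [show (univ.filter fun i : Fin 11 => (![0, 0, 0, 1, 2, 3, 4, 4, 3, 2, 1] :
        Fin 11 → Fin 5) i = (⟨3, by norm_num⟩ : Fin 5)) = {5, 8} by decide,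
        Finset.sum_insert (by decide), Finset.sum_singleton]
      linarith [k 5 (by decide), k 8 (by decide)]
    · rw [show (univ.filter fun i : Fin 11 => (![0, 0, 0, 1, 2, 3, 4, 4, 3, 2, 1] :
        Fin 11 → Fin 5) i = (⟨4, by norm_num⟩ : Fin 5)) = {6, 7} by decide,
        Finset.sum_insert (by decide), Finset.sum_singleton]
      linarith [k 6 (by decide), k 7 (by decide)]
  · push Not at h310
    have k3 := k 3 (by decide)
    have h023 : c 0 + c 2 + c 3 ≤ 1 := by
      by_contra h
      push Not at h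
      have k23 := m 2 3 (by decide)
      have k310 := m 3 10 (by decide)
      have k03 := m 0 3 (by decide)
      have hok : DualOK (c 0) (fun σ => if σ < c 0 then 0 else if σ < c 3 then 1 / 4 else
          if σ < c 10 then 1 / 2 else 3 / 4) := by
        constructor
        · intro σ
          split_ifs <;> norm_num
        · intro σ hσ
          rw [if_pos hσ]
        · intro p hp
          split_ifs <;> norm_num
        · intro p q hp hpq hsum
          split_ifs <;> first | (exfalso; linarith) | norm_num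
        · intro p q r hp hpq hqr hsum
          split_ifs <;> first | (exfalso; linarith) | norm_num
      have h1 := hD _ hok
      have h2 : ∑ i : Fin 11, (if i.val < 3 then (1 / 4 : ℝ) else if i.val < 10 then 1 / 2
          else 3 / 4) ≤ ∑ i : Fin 11, (if c i < c 0 then 0 else if c i < c 3 then 1 / 4 else
          if c i < c 10 then 1 / 2 else 3 / 4) := by
        apply Finset.sum_le_sum
        intro i _
        rw [if_neg (not_lt.2 (g i))]
        by_cases h1 : i.val < 3
        · rw [if_pos h1]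
          split_ifs <;> norm_num
        · rw [if_neg h1, if_neg (not_lt.2 (m 3 i (not_lt.1 h1)))]
          by_cases h2 : i.val < 10
          · rw [if_pos h2]
            split_ifs <;> norm_num
          · rw [if_neg h2, if_neg (not_lt.2 (m 10 i (not_lt.1 h2)))]
      have h3 : ∑ i : Fin 11, (if i.val < 3 then (1 / 4 : ℝ) else if i.val < 10 then 1 / 2
          else 3 / 4) = 5 := by
        simp [Fin.sum_univ_succ]
        norm_num
      linarith
    refine ⟨![1, 0, 1, 1, 2, 3, 4, 4, 3, 2, 0], ?_⟩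
    intro b
    fin_cases b
    · rw [show (univ.filter fun i : Fin 11 => (![1, 0, 1, 1, 2, 3, 4, 4, 3, 2, 0] :
        Fin 11 → Fin 5) i = (⟨0, by norm_num⟩ : Fin 5)) = {1, 10} by decide,
        Finset.sum_insert (by decide), Finset.sum_singleton]
      linarith
    · rw [show (univ.filter fun i : Fin 11 => (![1, 0, 1, 1, 2, 3, 4, 4, 3, 2, 0] :
        Fin 11 → Fin 5) i = (⟨1, by norm_num⟩ : Fin 5)) = {0, 2, 3} by decide,
        Finset.sum_insert (by decide), Finset.sum_insert (by decide), Finset.sum_singleton]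
      linarith
    · rw [show (univ.filter fun i : Fin 11 => (![1, 0, 1, 1, 2, 3, 4, 4, 3, 2, 0] :
        Fin 11 → Fin 5) i = (⟨2, by norm_num⟩ : Fin 5)) = {4, 9} by decide,
        Finset.sum_insert (by decide), Finset.sum_singleton]
      linarith [k 4 (by decide), k 9 (by decide)]
    · rw [show (univ.filter fun i : Fin 11 => (![1, 0, 1, 1, 2, 3, 4, 4, 3, 2, 0] :
        Fin 11 → Fin 5) i = (⟨3, by norm_num⟩ : Fin 5)) = {5, 8} by decide,
        Finset.sum_insert (by decide), Finset.sum_singleton]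
      linarith [k 5 (by decide), k 8 (by decide)]
    · rw [show (univ.filter fun i : Fin 11 => (![1, 0, 1, 1, 2, 3, 4, 4, 3, 2, 0] :
        Fin 11 → Fin 5) i = (⟨4, by norm_num⟩ : Fin 5)) = {6, 7} by decide,
        Finset.sum_insert (by decide), Finset.sum_singleton]
      linarith [k 6 (by decide), k 7 (by decide)]

end Vale.Agent.P302H8
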