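import Vale.Agent.P302.H8Crit
import Vale.Agent.P302.H8Seq

/-! The modified integer round-up property for instances with LP value at most four. -/

namespace Vale.Agent.P302H8

open Finset

variable {n : ℕ} {a : Fin n → ℚ}

theorem sorted_enum {m : ℕ} (J : Finset (Fin n)) (h : J.card = m) :
    ∃ e : Fin m ≃ J, Monotone fun i => a (e i) := by
  classical
  let e0 : Fin m ≃ J := (J.equivFinOfCardEq h).symm
  let g : Fin m → ℚ := fun i => a (e0 i)
  exact ⟨(Tuple.sort g).trans e0, Tuple.monotone_sort g⟩

theorem sum_enum {m : ℕ} (J : Finset (Fin n)) (e : Fin m ≃ J) (w : ℚ → ℝ) :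
    ∑ i, w (a (e i)) = ∑ i ∈ J, w (a i) := by
  rw [← Finset.sum_coe_sort J (fun i => w (a i))]
  exact Equiv.sum_comp e (fun x : J => w (a x))

theorem packs_of_seq {m k : ℕ} (J : Finset (Fin n)) (e : Fin m ≃ J) (hk : 0 < k)
    (F : Fin m → Fin k) (hF : ∀ b, ∑ i with F i = b, a (e i) ≤ 1) : Packs a J k := by
  classical
  refine ⟨fun x => if h : x ∈ J then F (e.symm ⟨x, h⟩) else ⟨0, hk⟩, fun b => ?_⟩
  refine le_trans (le_of_eq ?_) (hF b)
  rw [Finset.sum_filter, Finset.sum_filter, ← Finset.sum_coe_sort J, ← Equiv.sum_comp e]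
  apply Finset.sum_congr rfl
  intro i _
  have hx : (if h : (e i : Fin n) ∈ J then F (e.symm ⟨e i, h⟩) else ⟨0, hk⟩) = F i := by
    rw [dif_pos (e i).2]
    simp
  beta_reduce
  rw [hx]

theorem single_ok (s : ℚ) (hs : 1 / 4 < s) (hs3 : s ≤ 1 / 3) :
    DualOK s (fun σ => if σ < s then 0 else if σ ≤ 1 - s then (σ : ℝ) else 1) := by
  have c1 : ∀ x y : ℚ, x ≤ y → (x : ℝ) ≤ y := fun x y h => by exact_mod_cast h
  have cs : (1 / 4 : ℝ) < s := by
    have : ((1 / 4 : ℚ) : ℝ) < s := by exact_mod_cast hs
    simpa using this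
  have c2 : ∀ p : ℚ, p ≤ 1 - s → (p : ℝ) ≤ 1 - s := fun p h => by
    have := c1 _ _ h
    simpa using this
  constructor
  · intro σ
    split_ifs with h1 h2
    · exact le_rfl
    · have := c1 _ _ (not_lt.1 h1)
      linarith
    · norm_num
  · intro σ hσ
    rw [if_pos hσ]
  · intro p hp
    split_ifs with h1 h2
    · norm_num
    · have := c2 p h2
      linarith
    · exact le_rfl
  · intro p q hp hpq hsum
    rw [if_neg (not_lt.2 hp), if_pos (by linarith), if_neg (by linarith), if_pos (by linarith)]
    exact_mod_cast hsum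
  · intro p q r hp hpq hqr hsum
    rw [if_neg (not_lt.2 hp), if_pos (by linarith), if_neg (by linarith), if_pos (by linarith),
      if_neg (by linarith), if_pos (by linarith)]
    exact_mod_cast hsum

theorem five_bins (ha : ∀ i, 0 < a i ∧ a i ≤ 1) (hLP : LP a ≤ 4) : Packs a univ 5 := by
  classical
  by_contra hP
  obtain ⟨J, j, hj, hJ, hm, f, hf1, hf2⟩ := crit (by norm_num : 0 < 5) hP
  by_cases h3 : 1 / 3 < a j
  · have := big_case ha J j hj hm f hf2 h3
    norm_num at this
    linarith
  push Not at h3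
  have h4 : 1 / 4 < a j := by
    have := small_case ha (by norm_num : 0 < 5) J j hj f hf2
    have h5 : (1 / 4 : ℝ) < a j := by
      push_cast at this
      linarith
    have h6 : ((1 / 4 : ℚ) : ℝ) < a j := by
      simpa using h5
    exact_mod_cast h6
  have hD : ∀ w, DualOK (a j) w → ∑ i ∈ J, w (a i) ≤ 4 := fun w hw =>
    (dual3 ha (a j) h4 w hw.nn hw.zero hw.one hw.two hw.three J).trans hLP
  have hmem : ∀ b, ∀ i ∈ (J.erase j).filter (fun i => f i = b), a j ≤ a i := by
    intro b i hi
    exact hm i (Finset.mem_of_mem_erase (Finset.mem_filter.1 hi).1)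
  -- every bin has at least two items
  have hcard : ∀ b, 1 < ((J.erase j).filter (fun i => f i = b)).card := by
    intro b0
    by_contra hcon
    push Not at hcon
    have hD1 := hD _ (single_ok (a j) h4 h3)
    have hsb := sum_bins (a := a) J j hj f
      (fun σ : ℚ => if σ < a j then (0 : ℝ) else if σ ≤ 1 - a j then (σ : ℝ) else 1)
    beta_reduce at hsb
    rw [hsb, ← Finset.add_sum_erase _ _ (Finset.mem_univ b0)] at hD1
    have e0 : (if a j < a j then (0 : ℝ) else if a j ≤ 1 - a j then (a j : ℝ) else 1) = a j := by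
      rw [if_neg (lt_irrefl _), if_pos (by linarith)]
    rw [e0] at hD1
    have e1 : ∑ i ∈ J.erase j with f i = b0,
        (if a i < a j then (0 : ℝ) else if a i ≤ 1 - a j then (a i : ℝ) else 1) = 1 := by
      have hfb := hf2 b0
      have hmb := hmem b0
      interval_cases hc : ((J.erase j).filter (fun i => f i = b0)).card
      · rw [Finset.card_eq_zero.1 hc] at hfb
        simp only [Finset.sum_empty] at hfb
        exfalso
        linarith
      · obtain ⟨x, hx⟩ := Finset.card_eq_one.1 hc
        rw [hx] at hfb hmb ⊢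
        simp only [Finset.sum_singleton] at hfb ⊢
        rw [if_neg (not_lt.2 (hmb x (by simp))), if_neg (not_le.2 hfb)]
    rw [e1] at hD1
    have e2 : ((univ : Finset (Fin 5)).erase b0).card • (1 - a j : ℝ) <
        ∑ b ∈ univ.erase b0, ∑ i ∈ J.erase j with f i = b,
        (if a i < a j then (0 : ℝ) else if a i ≤ 1 - a j then (a i : ℝ) else 1) := by
      rw [← Finset.sum_const]
      apply Finset.sum_lt_sum_of_nonempty
      · rw [← Finset.card_pos, Finset.card_erase_of_mem (Finset.mem_univ _), Finset.card_univ,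
          Fintype.card_fin]
        norm_num
      · intro b _
        have k1 : ((1 - a j : ℚ) : ℝ) < ((∑ i ∈ J.erase j with f i = b, a i : ℚ) : ℝ) := by
          exact_mod_cast hf2 b
        push_cast at k1
        refine k1.trans_le (Finset.sum_le_sum fun i hi => ?_)
        rw [if_neg (not_lt.2 (hmem b i hi))]
        split_ifs
        · exact le_rfl
        · exact_mod_cast (ha i).2
    rw [Finset.card_erase_of_mem (Finset.mem_univ _), Finset.card_univ,
      Fintype.card_fin, nsmul_eq_mul] at e2
    have k3 : (a j : ℝ) ≤ 1 / 3 := by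
      have : (a j : ℝ) ≤ ((1 / 3 : ℚ) : ℝ) := by exact_mod_cast h3
      simpa using this
    have e3 : ((5 - 1 : ℕ) : ℝ) = 4 := by norm_num
    rw [e3] at e2
    linarith
  have hJ11 : 11 ≤ J.card := by
    have e1 : (J.erase j).card = ∑ b, ((J.erase j).filter (fun i => f i = b)).card :=
      Finset.card_eq_sum_card_fiberwise fun i _ => Finset.mem_univ _
    have e2 : ∑ _b : Fin 5, 2 ≤ ∑ b, ((J.erase j).filter (fun i => f i = b)).card :=
      Finset.sum_le_sum fun b _ => hcard b
    have e3 := Finset.card_erase_of_mem hj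
    have e4 : 0 < J.card := Finset.card_pos.2 ⟨j, hj⟩
    simp only [Finset.sum_const, Finset.card_univ, Fintype.card_fin, smul_eq_mul] at e2
    omega
  have hJ12 : J.card ≤ 12 := by
    have h1 := hD _ (half_ok (a j) h4)
    have h2 : J.card • (1 / 3 : ℝ) ≤ ∑ i ∈ J,
        (if a i < a j then 0 else if a i ≤ 1 / 2 then 1 / 3 else 2 / 3) := by
      apply Finset.card_nsmul_le_sum
      intro i hi
      rw [if_neg (not_lt.2 (hm i hi))]
      split_ifs <;> norm_num
    rw [nsmul_eq_mul] at h2
    have h3 : (J.card : ℝ) ≤ 12 := by linarith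
    exact_mod_cast h3
  obtain ⟨m, hmc⟩ : ∃ m, J.card = m := ⟨_, rfl⟩
  obtain ⟨e, he⟩ := sorted_enum (a := a) J hmc
  have hc0 : ∀ h : 0 < m, a (e ⟨0, h⟩) = a j := by
    intro h
    apply le_antisymm
    · have h1 := he (Fin.mk_le_of_le_val (Nat.zero_le _) : (⟨0, h⟩ : Fin m) ≤ e.symm ⟨j, hj⟩)
      simpa using h1
    · exact hm _ (e ⟨0, h⟩).2
  have hcase : m = 11 ∨ m = 12 := by omega
  rcases hcase with rfl | rfl
  · have h0 : a (e 0) = a j := hc0 (by norm_num)
    have hH : a (e 1) + a (e 10) ≤ 1 := by
      by_cases hL : (e 10 : Fin n) = j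
      · have h1 := he (show (1 : Fin 11) ≤ 10 by decide)
        simp only at h1
        rw [hL] at h1 ⊢
        linarith
      · have hLm : (e 10 : Fin n) ∈ (J.erase j).filter (fun i => f i = f (e 10)) :=
          Finset.mem_filter.2 ⟨Finset.mem_erase.2 ⟨hL, (e 10).2⟩, rfl⟩
        obtain ⟨y, hy, hyL⟩ := Finset.exists_mem_ne (hcard (f (e 10))) (e 10 : Fin n)
        have h1 : ∑ i ∈ {(e 10 : Fin n), y}, a i ≤
            ∑ i ∈ J.erase j with f i = f (e 10), a i := by
          apply Finset.sum_le_sum_of_subset_of_nonneg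
          · intro x hx
            rw [Finset.mem_insert, Finset.mem_singleton] at hx
            rcases hx with rfl | rfl
            · exact hLm
            · exact hy
          · intro i _ _
            exact (ha i).1.le
        rw [Finset.sum_pair hyL.symm] at h1
        have h2 := hf1 (f (e 10))
        have hyJ : y ∈ J := Finset.mem_of_mem_erase (Finset.mem_filter.1 hy).1
        have hyj : y ≠ j := Finset.ne_of_mem_erase (Finset.mem_filter.1 hy).1
        have h3 : a (e 1) ≤ a y := by
          by_cases hi : (1 : Fin 11) ≤ e.symm ⟨y, hyJ⟩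
          · have := he hi
            simpa using this
          · have hij : (1 : Fin 11) ≤ e.symm ⟨j, hj⟩ := by
              by_contra hcon
              apply hyj
              have k1 : e.symm ⟨y, hyJ⟩ = e.symm ⟨j, hj⟩ := by
                rw [Fin.le_def] at hi hcon
                ext
                have : ((1 : Fin 11) : ℕ) = 1 := rfl
                omega
              have := e.symm.injective k1
              exact congrArg Subtype.val this
            have h5 := he hij
            have h6 : a (e 1) ≤ a j := by simpa using h5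
            exact h6.trans (hm y hyJ)
        linarith
    obtain ⟨F, hF⟩ := seq11 (fun i => a (e i)) he (by rw [h0]; exact h4) hH (by
      intro w hw
      simp only [h0] at hw
      rw [sum_enum J e w]
      exact hD w hw)
    exact hJ (packs_of_seq J e (by norm_num) F hF)
  · have h0 : a (e 0) = a j := hc0 (by norm_num)
    obtain ⟨F, hF⟩ := seq12 (fun i => a (e i)) he (by rw [h0]; exact h4) (by
      intro w hw
      simp only [h0] at hw
      rw [sum_enum J e w]
      exact hD w hw)
    exact hJ (packs_of_seq J e (by norm_num) F hF)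

theorem le_four (ha : ∀ i, 0 < a i ∧ a i ≤ 1) (hLP : LP a ≤ 4) : OPT a ≤ ⌈LP a⌉₊ + 1 := by
  by_cases h3 : ⌈LP a⌉₊ ≤ 3
  · apply criterion ha
    intro i
    by_cases h : 1 / 3 < a i
    · exact Or.inl h
    · right
      push Not at h
      have h1 : (a i : ℝ) ≤ ((1 / 3 : ℚ) : ℝ) := by exact_mod_cast h
      have h2 : (⌈LP a⌉₊ : ℝ) ≤ 3 := by exact_mod_cast h3
      have h4 : (0 : ℝ) ≤ a i := by exact_mod_cast (ha i).1.le
      have h5 : ((1 / 3 : ℚ) : ℝ) = 1 / 3 := by norm_num
      rw [h5] at h1
      have h6 : (0 : ℝ) ≤ (⌈LP a⌉₊ : ℝ) := Nat.cast_nonneg _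
      nlinarith
  · have h4 : 4 ≤ ⌈LP a⌉₊ := by omega
    have h5 : OPT a ≤ 5 := Nat.sInf_le (five_bins ha hLP)
    omega

end Vale.Agent.P302H8
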