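import Vale.Agent.P302.Free
import Vale.Agent.P302.H8Main

/-! The two versions of the configuration LP, and the combination of the criteria. -/

open Finset

namespace Vale.Agent.P302

variable {n : ℕ} {a : Fin n → ℚ}

theorem toMultiset_inj : Function.Injective (Finsupp.toMultiset : (ℚ →₀ ℕ) → Multiset ℚ) :=
  Function.LeftInverse.injective (g := Multiset.toFinsupp) fun f => Finsupp.toMultiset_toFinsupp f

theorem H8_LP_le (ha : IsInstance a) : P302H8.LP a ≤ LP a := by
  classical
  apply le_csInf (feasible_nonempty ha)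
  rintro v ⟨z, ⟨h0, h1, h2⟩, rfl⟩
  set z' : Multiset ℚ →₀ ℝ := z.mapDomain Finsupp.toMultiset with hz'
  have hval : ∀ m : Multiset ℚ, z' m = z (Multiset.toFinsupp m) := by
    intro m
    conv_lhs => rw [← Multiset.toFinsupp_toMultiset m]
    exact Finsupp.mapDomain_apply toMultiset_inj z _
  have hsum : ∀ w : Multiset ℚ → ℝ, (z'.sum fun c t => w c * t) =
      ∑ c ∈ z.support, w (Finsupp.toMultiset c) * z c := by
    intro w
    rw [hz', Finsupp.sum_mapDomain_index (fun _ => mul_zero _) (fun _ _ _ => mul_add _ _ _)]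
    rfl
  apply csInf_le
  · refine ⟨0, ?_⟩
    rintro v ⟨y, hy, rfl⟩
    exact Finset.sum_nonneg fun c _ => hy.1 c
  · refine ⟨z', ⟨fun m => ?_, fun m hm => ?_, fun s => ?_⟩, ?_⟩
    · rw [hval]
      exact h0 _
    · rw [hval] at hm
      obtain ⟨h3, h4⟩ := h1 _ (Finsupp.mem_support_iff.2 hm)
      refine ⟨fun s hs => h3 s ?_, ?_⟩
      · rw [Finsupp.mem_support_iff, Multiset.toFinsupp_apply]
        exact Multiset.count_ne_zero.2 hs
      · rw [Finset.sum_multiset_count]
        refine le_trans (le_of_eq ?_) h4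
        rw [Multiset.toFinsupp_support]
        refine Finset.sum_congr rfl fun s _ => ?_
        rw [nsmul_eq_mul, Multiset.toFinsupp_apply, mul_comm]
    · rw [hsum (fun c => (c.count s : ℝ))]
      refine le_trans (h2 s) (le_of_eq ?_)
      refine Finset.sum_congr rfl fun c _ => ?_
      rw [Finsupp.count_toMultiset]
    · have h5 := hsum (fun _ => 1)
      simp only [one_mul] at h5
      exact h5.symm

theorem packs_mono {m m' : ℕ} (h : m ≤ m') (hp : Packs a m) : Packs a m' := by
  classical
  obtain ⟨f, hf⟩ := hp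
  refine ⟨fun i => Fin.castLE h (f i), fun b => ?_⟩
  by_cases hb : (b : ℕ) < m
  · refine le_trans (le_of_eq ?_) (hf ⟨b, hb⟩)
    refine Finset.sum_congr (Finset.filter_congr fun i _ => ?_) fun _ _ => rfl
    rw [Fin.ext_iff, Fin.ext_iff]
    rfl
  · have : (univ.filter fun i => Fin.castLE h (f i) = b) = ∅ := by
      apply Finset.filter_eq_empty_iff.2
      intro i _ hi
      apply hb
      rw [← hi]
      exact (f i).2
    rw [this, Finset.sum_empty]
    norm_num

theorem five (ha : IsInstance a) (h : LP a ≤ 4) : Packs a 5 :=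
  P302H8.five_bins ha ((H8_LP_le ha).trans h)

/-- Items of a subfamily that fits into `N` bins, all others being small. -/
theorem packs_of_sub (ha : IsInstance a) {N m : ℕ} (hN : 1 ≤ N) (e : Fin m → Fin n)
    (he : Function.Injective e) (hp : Packs (a ∘ e) N)
    (hs : ∀ i, (∀ j, e j ≠ i) → ∑ l, a l ≤ N * (1 - a i) + a i) : Packs a N := by
  classical
  obtain ⟨f, hf⟩ := hp
  set T : Finset (Fin n) := univ.image e with hT
  set S : Finset (Fin n) := univ \ T with hS
  have hTp : PacksOn a T N := by
    refine ⟨fun i => if h : ∃ j, e j = i then f h.choose else ⟨0, by omega⟩, fun b => ?_⟩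
    refine le_trans (le_of_eq ?_) (hf b)
    symm
    refine Finset.sum_bij (fun j _ => e j) ?_ ?_ ?_ ?_
    · intro j hj
      have h2 := (Finset.mem_filter.1 hj).2
      rw [Finset.mem_filter]
      refine ⟨mem_image_of_mem e (mem_univ j), ?_⟩
      have hex : ∃ j', e j' = e j := ⟨j, rfl⟩
      beta_reduce
      rw [dif_pos hex, he hex.choose_spec]
      exact h2
    · intro j _ j' _ h
      exact he h
    · intro i hi
      obtain ⟨h1, h2⟩ := Finset.mem_filter.1 hi
      obtain ⟨j, _, hj⟩ := mem_image.1 h1
      refine ⟨j, ?_, hj⟩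
      rw [Finset.mem_filter]
      refine ⟨mem_univ _, ?_⟩
      have hex : ∃ j', e j' = i := ⟨j, hj⟩
      beta_reduce at h2
      rw [dif_pos hex] at h2
      have h3 : hex.choose = j := he (hex.choose_spec.trans hj.symm)
      rw [h3] at h2
      exact h2
    · intro j _
      rfl
  have h1 := add_free ha hN S T Finset.sdiff_disjoint (fun x hx => hs x fun j hj => by
    have h2 := (Finset.mem_sdiff.1 hx).2
    exact h2 (hj ▸ mem_image_of_mem e (mem_univ j))) hTp
  rw [hS, Finset.sdiff_union_of_subset (subset_univ T)] at h1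
  exact packs_of_on h1

end Vale.Agent.P302
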