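import Mathlib

/-! Bin packing: packings, configurations and the Gilmore-Gomory configuration LP. -/

namespace Vale.Agent.P302

/-- `a` is a bin packing instance: all sizes lie in `(0, 1]`. -/
def IsInstance {n : ℕ} (a : Fin n → ℚ) : Prop := ∀ i, 0 < a i ∧ a i ≤ 1

/-- The items can be partitioned into `m` bins of total size at most `1`. -/
def Packs {n : ℕ} (a : Fin n → ℚ) (m : ℕ) : Prop :=
  ∃ f : Fin n → Fin m, ∀ b : Fin m, ∑ i with f i = b, a i ≤ 1

/-- The least number of bins. -/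
noncomputable def OPT {n : ℕ} (a : Fin n → ℚ) : ℕ := sInf {m | Packs a m}

/-- `c` is a configuration: a vector of multiplicities of the sizes of `a` of total size at most
`1`. -/
def IsConfig {n : ℕ} (a : Fin n → ℚ) (c : ℚ →₀ ℕ) : Prop :=
  (∀ s ∈ c.support, ∃ i, a i = s) ∧ ∑ s ∈ c.support, s * (c s : ℚ) ≤ 1

/-- `z` is a feasible solution of the configuration LP. -/
def Feasible {n : ℕ} (a : Fin n → ℚ) (z : (ℚ →₀ ℕ) →₀ ℝ) : Prop :=
  (∀ c, 0 ≤ z c) ∧ (∀ c ∈ z.support, IsConfig a c) ∧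
  ∀ s : ℚ, ((Finset.univ.filter fun i => a i = s).card : ℝ) ≤ ∑ c ∈ z.support, (c s : ℝ) * z c

/-- The value of the configuration LP. -/
noncomputable def LP {n : ℕ} (a : Fin n → ℚ) : ℝ :=
  sInf {v : ℝ | ∃ z : (ℚ →₀ ℕ) →₀ ℝ, Feasible a z ∧ v = ∑ c ∈ z.support, z c}

end Vale.Agent.P302
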