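import Vale.Agent.P302.Weight

/-! The configuration LP is a lower bound for the number of bins. -/

open Finset

namespace Vale.Agent.P302

variable {n : ℕ} {a : Fin n → ℚ}

theorem LP_le_of_packs {m : ℕ} (h : Packs a m) : LP a ≤ m := by
  classical
  obtain ⟨f, hf⟩ := h
  let cfg : Fin m → (ℚ →₀ ℕ) := fun b => ∑ i ∈ univ.filter (fun i => f i = b),
    Finsupp.single (a i) 1
  let z : (ℚ →₀ ℕ) →₀ ℝ := ∑ b, Finsupp.single (cfg b) (1 : ℝ)
  have hcfg : ∀ b s, cfg b s = ∑ i ∈ univ.filter (fun i => f i = b),
      (if a i = s then 1 else 0 : ℕ) := by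
    intro b s
    show (∑ i ∈ univ.filter (fun i => f i = b), Finsupp.single (a i) 1 : ℚ →₀ ℕ) s = _
    rw [Finsupp.finsetSum_apply]
    exact Finset.sum_congr rfl fun i _ => Finsupp.single_apply
  have hz : ∀ c, z c = ∑ b, (if cfg b = c then 1 else 0 : ℝ) := by
    intro c
    show (∑ b, Finsupp.single (cfg b) (1 : ℝ) : (ℚ →₀ ℕ) →₀ ℝ) c = _
    rw [Finsupp.finsetSum_apply]
    exact Finset.sum_congr rfl fun i _ => Finsupp.single_apply
  have hsum : ∀ w : (ℚ →₀ ℕ) → ℝ, ∑ c ∈ z.support, w c * z c = ∑ b, w (cfg b) := by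
    intro w
    have h1 : z.sum (fun c x => w c * x) = ∑ b, w (cfg b) := by
      show (∑ b, Finsupp.single (cfg b) (1 : ℝ)).sum (fun c x => w c * x) = _
      rw [← Finsupp.sum_finsetSum_index (fun c => mul_zero _) (fun c x y => mul_add _ _ _)]
      refine Finset.sum_congr rfl fun b _ => ?_
      rw [Finsupp.sum_single_index (mul_zero _), mul_one]
    exact h1
  have hconf : ∀ b, IsConfig a (cfg b) := by
    intro b
    refine ⟨fun s hs => ?_, ?_⟩
    · rw [Finsupp.mem_support_iff, hcfg] at hs
      obtain ⟨i, _, hi⟩ := Finset.exists_ne_zero_of_sum_ne_zero hs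
      refine ⟨i, ?_⟩
      by_contra h
      exact hi (if_neg h)
    · have h1 : (cfg b).sum (fun (s : ℚ) (x : ℕ) => s * (x : ℚ)) =
          ∑ i ∈ univ.filter (fun i => f i = b), a i := by
        show (∑ i ∈ univ.filter (fun i => f i = b), Finsupp.single (a i) (1 : ℕ)).sum
          (fun (s : ℚ) (x : ℕ) => s * (x : ℚ)) = _
        rw [← Finsupp.sum_finsetSum_index (fun c => by simp) (fun c x y => by push_cast; ring)]
        refine Finset.sum_congr rfl fun i _ => ?_
        rw [Finsupp.sum_single_index (by simp)]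
        simp
      refine le_trans (le_of_eq ?_) (hf b)
      exact h1
  have hval : ∑ c ∈ z.support, z c = m := by
    have := hsum (fun _ => 1)
    simpa using this
  rw [← hval]
  apply csInf_le
  · refine ⟨0, ?_⟩
    rintro v ⟨z', hz', rfl⟩
    exact Finset.sum_nonneg fun c _ => hz'.1 c
  · refine ⟨z, ⟨fun c => ?_, fun c hc => ?_, fun s => ?_⟩, rfl⟩
    · rw [hz]
      exact Finset.sum_nonneg fun b _ => by split_ifs <;> norm_num
    · rw [Finsupp.mem_support_iff, hz] at hc
      obtain ⟨b, _, hb⟩ := Finset.exists_ne_zero_of_sum_ne_zero hc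
      have : cfg b = c := by
        by_contra h
        exact hb (if_neg h)
      rw [← this]
      exact hconf b
    · rw [hsum (fun c => (c s : ℝ))]
      have h1 : (univ.filter fun i => a i = s).card = ∑ b, cfg b s := by
        simp_rw [hcfg]
        rw [Finset.sum_fiberwise_of_maps_to (t := univ) (fun i _ => mem_univ (f i)),
          Finset.card_filter]
      rw [h1]
      push_cast
      exact le_rfl

theorem packs_self (ha : IsInstance a) : Packs a n := by
  classical
  refine ⟨id, fun b => ?_⟩
  have : (univ.filter fun i : Fin n => id i = b) = {b} := by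
    ext i; simp
  rw [this, Finset.sum_singleton]
  exact (ha b).2

theorem packs_OPT (ha : IsInstance a) : Packs a (OPT a) :=
  Nat.sInf_mem (s := {m | Packs a m}) ⟨n, packs_self ha⟩

end Vale.Agent.P302
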