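import Vale.Agent.P302.Main
import Vale.Agent.P302.Low

/-! Using the free space: items are added greedily as long as the total size allows it. -/

open Finset

namespace Vale.Agent.P302

variable {n : ℕ} {a : Fin n → ℚ}

theorem insert_free (ha : IsInstance a) {N : ℕ} (hN : 1 ≤ N) {T : Finset (Fin n)} {x : Fin n}
    (hx : x ∉ T) (hs : ∑ i, a i ≤ N * (1 - a x) + a x) (h : PacksOn a T N) :
    PacksOn a (insert x T) N := by
  classical
  obtain ⟨f, hf⟩ := h
  have hb : ∃ b : Fin N, ∑ i ∈ T with f i = b, a i ≤ 1 - a x := by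
    by_contra hcon
    push Not at hcon
    have h1 : ∑ b : Fin N, (1 - a x) < ∑ b : Fin N, ∑ i ∈ T with f i = b, a i :=
      Finset.sum_lt_sum_of_nonempty ⟨⟨0, by omega⟩, mem_univ _⟩ (fun b _ => hcon b)
    rw [Finset.sum_const, card_univ, Fintype.card_fin, nsmul_eq_mul] at h1
    rw [Finset.sum_fiberwise_of_maps_to (t := univ) (fun i _ => mem_univ (f i))] at h1
    have h2 : ∑ i ∈ insert x T, a i ≤ ∑ i, a i :=
      Finset.sum_le_sum_of_subset_of_nonneg (subset_univ _) (fun i _ _ => (ha i).1.le)
    rw [Finset.sum_insert hx] at h2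
    linarith
  obtain ⟨b, hb⟩ := hb
  refine ⟨Function.update f x b, fun b' => ?_⟩
  have h1 : ∀ b' : Fin N, ∑ i ∈ T with Function.update f x b i = b', a i =
      ∑ i ∈ T with f i = b', a i := by
    intro b'
    refine Finset.sum_congr (Finset.filter_congr fun i hi => ?_) fun _ _ => rfl
    have : i ≠ x := fun h => hx (h ▸ hi)
    rw [Function.update_of_ne this]
  rw [Finset.filter_insert]
  split_ifs with h2
  · rw [Function.update_self] at h2
    rw [Finset.sum_insert (fun h => hx (Finset.mem_filter.1 h).1), h1, ← h2]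
    linarith
  · rw [h1]
    exact hf b'

theorem add_free (ha : IsInstance a) {N : ℕ} (hN : 1 ≤ N) (S : Finset (Fin n))
    (T : Finset (Fin n)) (hST : Disjoint S T)
    (hs : ∀ x ∈ S, ∑ i, a i ≤ N * (1 - a x) + a x) (h : PacksOn a T N) :
    PacksOn a (S ∪ T) N := by
  classical
  induction S using Finset.induction_on with
  | empty => rwa [Finset.empty_union]
  | insert x S hx ih =>
    rw [Finset.insert_union]
    have h1 := ih (Finset.disjoint_of_subset_left (Finset.subset_insert x S) hST)
      (fun y hy => hs y (Finset.mem_insert_of_mem hy))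
    apply insert_free ha hN _ (hs x (Finset.mem_insert_self x S)) h1
    rw [Finset.mem_union]
    rintro (h2 | h2)
    · exact hx h2
    · exact Finset.disjoint_left.1 hST (Finset.mem_insert_self x S) h2

theorem main_gen (ha : IsInstance a) {k q : ℕ} (hq : 1 ≤ q) (hk : LP a ≤ k) (t : ℚ)
    (hP : ∀ i, a i ≤ t → ∑ j, a j ≤ (k + q : ℕ) * (1 - a i) + a i)
    (hmed : PacksOn a (univ.filter fun i => t < a i ∧ a i ≤ 1 / 3) q) :
    Packs a (k + q) := by
  classical
  obtain ⟨g, hg1, hg2⟩ := big_packs ha hk
  obtain ⟨f, hf⟩ := hmed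
  set T : Finset (Fin n) := univ.filter fun i => 1 / 3 < a i ∨ t < a i with hT
  set S : Finset (Fin n) := univ.filter fun i => ¬ (1 / 3 < a i ∨ t < a i) with hS
  have hST : Disjoint S T := (Finset.disjoint_filter_filter_not univ univ _).symm
  have hU : S ∪ T = univ := by
    rw [Finset.union_comm]
    exact Finset.filter_union_filter_not_eq _ _
  have hTp : PacksOn a T (k + q) := by
    refine ⟨fun i => if h : 1 / 3 < a i then ⟨g i, (hg1 i h).trans_le (Nat.le_add_right k q)⟩
      else ⟨k + f i, Nat.add_lt_add_left (f i).2 k⟩, fun b => ?_⟩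
    by_cases hb : k ≤ (b : ℕ)
    · have hb2 : (b : ℕ) - k < q := by
        have := b.2
        omega
      refine le_trans (Finset.sum_le_sum_of_subset_of_nonneg ?_ (fun i _ _ => (ha i).1.le))
        (hf ⟨(b : ℕ) - k, hb2⟩)
      intro i hi
      rw [Finset.mem_filter] at hi
      obtain ⟨hi1, hi2⟩ := hi
      have hi3 := (Finset.mem_filter.1 hi1).2
      by_cases h : 1 / 3 < a i
      · exfalso
        simp only [h, dite_true] at hi2
        have h4 := congrArg Fin.val hi2
        have h5 := hg1 i h
        simp only at h4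
        omega
      · simp only [h, dite_false] at hi2
        have h4 := congrArg Fin.val hi2
        simp only at h4
        rw [Finset.mem_filter, Finset.mem_filter]
        refine ⟨⟨mem_univ _, hi3.resolve_left h, not_lt.1 h⟩, Fin.ext ?_⟩
        show (f i : ℕ) = (b : ℕ) - k
        omega
    · refine le_trans (Finset.sum_le_sum_of_subset_of_nonneg ?_ (fun i _ _ => (ha i).1.le))
        (hg2 (b : ℕ))
      intro i hi
      rw [Finset.mem_filter] at hi ⊢
      obtain ⟨hi1, hi2⟩ := hi
      refine ⟨mem_univ _, ?_⟩
      by_cases h : 1 / 3 < a i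
      · simp only [h, dite_true] at hi2
        exact ⟨h, congrArg Fin.val hi2⟩
      · exfalso
        simp only [h, dite_false] at hi2
        have h4 := congrArg Fin.val hi2
        simp only at h4
        omega
  have h1 := add_free ha (show 1 ≤ k + q by omega) S T hST (fun x hx => by
    have h2 := (Finset.mem_filter.1 hx).2
    push Not at h2
    exact hP x h2.2) hTp
  rw [hU] at h1
  exact packs_of_on h1

end Vale.Agent.P302
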