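import Vale.Agent.P302.H8Dual

/-! Critical sets. -/

namespace Vale.Agent.P302H8

open Finset

variable {n : ℕ} {a : Fin n → ℚ}

theorem crit {k : ℕ} (hk : 0 < k) (h : ¬ Packs a univ k) :
    ∃ (J : Finset (Fin n)) (j : Fin n), j ∈ J ∧ ¬ Packs a J k ∧ (∀ i ∈ J, a j ≤ a i) ∧
      ∃ f : Fin n → Fin k, (∀ b, ∑ i ∈ J.erase j with f i = b, a i ≤ 1) ∧
        ∀ b, 1 - a j < ∑ i ∈ J.erase j with f i = b, a i := by
  classical
  obtain ⟨J, hJ, hmin⟩ := (Finset.isWellFounded_ssubset (α := Fin n)).wf.has_min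
    {J | ¬ Packs a J k} ⟨univ, h⟩
  have hJ' : ¬ Packs a J k := hJ
  have hne : J.Nonempty := by
    rw [Finset.nonempty_iff_ne_empty]
    rintro rfl
    apply hJ'
    exact ⟨fun _ => ⟨0, hk⟩, fun b => by simp⟩
  obtain ⟨j, hj, hjm⟩ := Finset.exists_min_image J a hne
  have hp : Packs a (J.erase j) k := by
    by_contra hcon
    exact hmin _ hcon (Finset.erase_ssubset hj)
  obtain ⟨f, hf⟩ := hp
  refine ⟨J, j, hj, hJ', hjm, f, hf, ?_⟩
  intro b
  by_contra hcon
  push Not at hcon
  apply hJ'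
  refine ⟨Function.update f j b, ?_⟩
  intro b'
  have e1 : ∑ i ∈ J with Function.update f j b i = b', a i =
      (if b = b' then a j else 0) + ∑ i ∈ J.erase j with f i = b', a i := by
    rw [Finset.sum_filter, Finset.sum_filter, ← Finset.add_sum_erase J _ hj]
    congr 1
    · rw [Function.update_self]
    · apply Finset.sum_congr rfl
      intro i hi
      rw [Function.update_of_ne (Finset.ne_of_mem_erase hi)]
  rw [e1]
  by_cases hb : b = b'
  · subst hb
    rw [if_pos rfl]
    linarith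
  · rw [if_neg hb, zero_add]
    exact hf b'

theorem sum_bins {k : ℕ} (J : Finset (Fin n)) (j : Fin n) (hj : j ∈ J) (f : Fin n → Fin k)
    (w : ℚ → ℝ) : ∑ i ∈ J, w (a i) = w (a j) + ∑ b, ∑ i ∈ J.erase j with f i = b, w (a i) := by
  rw [← Finset.add_sum_erase J _ hj, Finset.sum_fiberwise]

/-- the volume bound -/
theorem volume_le (ha : ∀ i, 0 < a i ∧ a i ≤ 1) (J : Finset (Fin n)) :
    ∑ i ∈ J, (a i : ℝ) ≤ LP a := by
  have h := dual ha (fun σ => max (σ : ℝ) 0) (fun σ => le_max_right _ _) ?_ J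
  · refine le_trans (Finset.sum_le_sum fun i _ => ?_) h
    exact le_max_left _ _
  · intro c hc
    have e1 : (c.map (fun σ : ℚ => max (σ : ℝ) 0)) = c.map (fun σ : ℚ => (σ : ℝ)) := by
      apply Multiset.map_congr rfl
      intro σ hσ
      obtain ⟨i, rfl⟩ := hc.1 σ hσ
      apply max_eq_left
      exact_mod_cast (ha i).1.le
    rw [e1]
    have e2 : (c.map (fun σ : ℚ => (σ : ℝ))).sum = ((c.sum : ℚ) : ℝ) := by
      exact (map_multiset_sum (Rat.castHom ℝ) c).symm
    rw [e2]
    exact_mod_cast hc.2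

theorem LP_nonneg (ha : ∀ i, 0 < a i ∧ a i ≤ 1) : 0 ≤ LP a := by
  have := volume_le ha ∅
  rw [Finset.sum_empty] at this
  exact this

/-- the critical item is larger than `1/3`. -/
theorem big_case (ha : ∀ i, 0 < a i ∧ a i ≤ 1) {k : ℕ} (J : Finset (Fin n)) (j : Fin n)
    (hj : j ∈ J) (hm : ∀ i ∈ J, a j ≤ a i) (f : Fin n → Fin k)
    (hf : ∀ b, 1 - a j < ∑ i ∈ J.erase j with f i = b, a i) (h3 : 1 / 3 < a j) :
    (k : ℝ) + 1 / 2 ≤ LP a := by
  set s := a j with hs
  set w : ℚ → ℝ := fun σ => if σ < s then 0 else if σ ≤ 1 - s then 1 / 2 else 1 with hw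
  have hw0 : ∀ σ, 0 ≤ w σ := by
    intro σ
    simp only [hw]
    split_ifs <;> norm_num
  have hw1 : ∀ σ, w σ ≤ 1 := by
    intro σ
    simp only [hw]
    split_ifs <;> norm_num
  have hwh : ∀ σ, s ≤ σ → 1 / 2 ≤ w σ := by
    intro σ hσ
    simp only [hw]
    rw [if_neg (not_lt.2 hσ)]
    split_ifs <;> norm_num
  have hwo : ∀ σ, s ≤ σ → 1 - s < σ → w σ = 1 := by
    intro σ hσ hσ2
    simp only [hw]
    rw [if_neg (not_lt.2 hσ), if_neg (not_le.2 hσ2)]
  have h := dual3 ha s (by linarith) w hw0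
    (by
      intro σ hσ
      simp only [hw]
      rw [if_pos hσ])
    (fun p _ => hw1 p)
    (by
      intro p q hp hpq hpq1
      have hp1 : w p ≤ 1 / 2 := by
        simp only [hw]
        rw [if_neg (not_lt.2 hp), if_pos (by linarith)]
      have hq1 : w q ≤ 1 / 2 := by
        simp only [hw]
        rw [if_neg (not_lt.2 (hp.trans hpq)), if_pos (by linarith)]
      linarith)
    (by
      intro p q r hp hpq hqr hsum
      exfalso
      linarith) J
  rw [sum_bins J j hj f w] at h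
  have h1 : (k : ℝ) ≤ ∑ b : Fin k, ∑ i ∈ J.erase j with f i = b, w (a i) := by
    have e1 : (k : ℝ) = ∑ _b : Fin k, (1 : ℝ) := by simp
    rw [e1]
    apply Finset.sum_le_sum
    intro b _
    have hmem : ∀ i ∈ (J.erase j).filter (fun i => f i = b), s ≤ a i := by
      intro i hi
      exact hm i (Finset.mem_of_mem_erase (Finset.mem_filter.1 hi).1)
    rcases Nat.lt_or_ge 1 ((J.erase j).filter (fun i => f i = b)).card with hc | hc
    · calc (1 : ℝ) ≤ ((J.erase j).filter (fun i => f i = b)).card • (1 / 2 : ℝ) := by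
            rw [nsmul_eq_mul]
            have : (2 : ℝ) ≤ ((J.erase j).filter (fun i => f i = b)).card := by exact_mod_cast hc
            linarith
        _ ≤ _ := Finset.card_nsmul_le_sum _ _ _ fun i hi => hwh _ (hmem i hi)
    · have hfb := hf b
      interval_cases hcard : ((J.erase j).filter (fun i => f i = b)).card
      · rw [Finset.card_eq_zero.1 hcard] at hfb
        simp only [Finset.sum_empty] at hfb
        have := (ha j).2
        exfalso
        linarith
      · obtain ⟨x, hx⟩ := Finset.card_eq_one.1 hcard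
        rw [hx] at hfb hmem ⊢
        simp only [Finset.sum_singleton] at hfb ⊢
        rw [hwo _ (hmem x (by simp)) hfb]
  have h2 := hwh s le_rfl
  linarith

/-- the critical item is small. -/
theorem small_case (ha : ∀ i, 0 < a i ∧ a i ≤ 1) {k : ℕ} (hk : 0 < k) (J : Finset (Fin n))
    (j : Fin n) (hj : j ∈ J) (f : Fin n → Fin k)
    (hf : ∀ b, 1 - a j < ∑ i ∈ J.erase j with f i = b, a i) :
    (k : ℝ) * (1 - a j) + a j < LP a := by
  have h := volume_le ha J
  have e := sum_bins (a := a) J j hj f (fun σ => (σ : ℝ))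
  rw [e] at h
  have h1 : (k : ℝ) * (1 - a j) < ∑ b : Fin k, ∑ i ∈ J.erase j with f i = b, (a i : ℝ) := by
    have e1 : (k : ℝ) * (1 - a j) = ∑ _b : Fin k, (1 - a j : ℝ) := by
      rw [Finset.sum_const, Finset.card_univ, Fintype.card_fin, nsmul_eq_mul]
    rw [e1]
    apply Finset.sum_lt_sum_of_nonempty
    · exact ⟨⟨0, hk⟩, Finset.mem_univ _⟩
    · intro b _
      have := hf b
      have h2 : ((1 - a j : ℚ) : ℝ) < ((∑ i ∈ J.erase j with f i = b, a i : ℚ) : ℝ) := by
        exact_mod_cast this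
      push_cast at h2
      exact h2
  linarith

/-- the general criterion -/
theorem criterion (ha : ∀ i, 0 < a i ∧ a i ≤ 1)
    (h : ∀ i, 1 / 3 < a i ∨ (a i : ℝ) * ⌈LP a⌉₊ ≤ 1) : OPT a ≤ ⌈LP a⌉₊ + 1 := by
  set N := ⌈LP a⌉₊ with hN
  have hle : LP a ≤ N := Nat.le_ceil _
  by_contra hcon
  have hP : ¬ Packs a univ (N + 1) := by
    intro hP
    exact hcon (Nat.sInf_le hP)
  obtain ⟨J, j, hj, -, hm, f, -, hf⟩ := crit (Nat.succ_pos N) hP
  rcases h j with h3 | h3
  · have := big_case ha J j hj hm f hf h3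
    push_cast at this
    linarith
  · have := small_case ha (Nat.succ_pos N) J j hj f hf
    push_cast at this
    have h4 : (a j : ℝ) * N ≤ 1 := h3
    nlinarith

end Vale.Agent.P302H8
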