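import Mathlib

/-! Bin packing and the Gilmore-Gomory configuration LP. -/

namespace Vale.Agent.P302H8

open Finset

/-- the items in `J` fit into `k` bins of capacity `1`. -/
def Packs {n : ℕ} (a : Fin n → ℚ) (J : Finset (Fin n)) (k : ℕ) : Prop :=
  ∃ f : Fin n → Fin k, ∀ b : Fin k, ∑ i ∈ J with f i = b, a i ≤ 1

/-- the least number of bins for all items. -/
noncomputable def OPT {n : ℕ} (a : Fin n → ℚ) : ℕ := sInf {k | Packs a univ k}

/-- a configuration: a finite multiset of sizes of the instance with sum at most `1` (the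
multiplicity `c_σ` is `c.count σ`). -/
def IsConfig {n : ℕ} (a : Fin n → ℚ) (c : Multiset ℚ) : Prop :=
  (∀ σ ∈ c, ∃ i, a i = σ) ∧ c.sum ≤ 1

/-- a feasible solution of the configuration LP: nonnegative weights on finitely many
configurations which cover every size `σ` at least `n_σ` times. -/
def IsFrac {n : ℕ} (a : Fin n → ℚ) (z : Multiset ℚ →₀ ℝ) : Prop :=
  (∀ c, 0 ≤ z c) ∧ (∀ c, z c ≠ 0 → IsConfig a c) ∧
    ∀ σ : ℚ, (#{i | a i = σ} : ℝ) ≤ z.sum fun c t => (c.count σ : ℝ) * t

/-- the value of the configuration LP. -/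
noncomputable def LP {n : ℕ} (a : Fin n → ℚ) : ℝ :=
  sInf {v : ℝ | ∃ z : Multiset ℚ →₀ ℝ, IsFrac a z ∧ v = z.sum fun _ t => t}

end Vale.Agent.P302H8
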