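import Vale.Agent.P302.H8Defs

/-! Weak duality. -/

namespace Vale.Agent.P302H8

open Finset

variable {n : ℕ} {a : Fin n → ℚ}

theorem frac_exists (ha : ∀ i, 0 < a i ∧ a i ≤ 1) : ∃ z : Multiset ℚ →₀ ℝ, IsFrac a z := by
  refine ⟨∑ i, Finsupp.single {a i} 1, ?_, ?_, ?_⟩
  · intro c
    rw [Finsupp.finsetSum_apply]
    apply Finset.sum_nonneg
    intro i _
    rw [Finsupp.single_apply]
    split_ifs <;> norm_num
  · intro c hc
    rw [Finsupp.finsetSum_apply] at hc
    obtain ⟨i, _, hi⟩ := Finset.exists_ne_zero_of_sum_ne_zero hc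
    rw [Finsupp.single_apply] at hi
    have h1 : {a i} = c := by
      by_contra h
      rw [if_neg h] at hi
      exact hi rfl
    rw [← h1]
    refine ⟨?_, ?_⟩
    · intro σ hσ
      rw [Multiset.mem_singleton] at hσ
      exact ⟨i, hσ.symm⟩
    · rw [Multiset.sum_singleton]
      exact (ha i).2
  · intro σ
    rw [← Finsupp.sum_finsetSum_index]
    · apply le_of_eq
      rw [Finset.card_eq_sum_ones, Finset.sum_filter]
      push_cast
      apply Finset.sum_congr rfl
      intro i _
      rw [Finsupp.sum_single_index (by simp), Multiset.count_singleton]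
      by_cases h : a i = σ
      · simp [h]
      · simp [h, Ne.symm h]
    · intro c
      simp
    · intro c x y
      ring

theorem dual_frac {z : Multiset ℚ →₀ ℝ} (hz : IsFrac a z) (w : ℚ → ℝ) (hw : ∀ σ, 0 ≤ w σ)
    (hc : ∀ c, IsConfig a c → (c.map w).sum ≤ 1) (J : Finset (Fin n)) :
    ∑ i ∈ J, w (a i) ≤ z.sum fun _ t => t := by
  calc ∑ i ∈ J, w (a i) ≤ ∑ i, w (a i) :=
        Finset.sum_le_sum_of_subset_of_nonneg (Finset.subset_univ _) fun i _ _ => hw _
    _ = ∑ σ ∈ univ.image a, (#{i | a i = σ} : ℝ) * w σ := by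
        rw [← Finset.sum_fiberwise_of_maps_to (t := univ.image a) (g := a)
          (fun i _ => Finset.mem_image_of_mem _ (Finset.mem_univ i))]
        apply Finset.sum_congr rfl
        intro σ _
        rw [Finset.sum_congr rfl (g := fun _ => w σ)
          (fun i hi => by rw [(Finset.mem_filter.1 hi).2]), Finset.sum_const, nsmul_eq_mul]
    _ ≤ ∑ σ ∈ univ.image a, (z.sum fun c t => (c.count σ : ℝ) * t) * w σ :=
        Finset.sum_le_sum fun σ _ => mul_le_mul_of_nonneg_right (hz.2.2 σ) (hw σ)
    _ = ∑ c ∈ z.support, z c * ∑ σ ∈ univ.image a, (c.count σ : ℝ) * w σ := by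
        unfold Finsupp.sum
        simp_rw [Finset.sum_mul, Finset.mul_sum]
        rw [Finset.sum_comm]
        apply Finset.sum_congr rfl
        intro c _
        apply Finset.sum_congr rfl
        intro σ _
        ring
    _ ≤ ∑ c ∈ z.support, z c := by
        apply Finset.sum_le_sum
        intro c hcs
        have hcc := hz.2.1 c (Finsupp.mem_support_iff.1 hcs)
        have h1 : ∑ σ ∈ univ.image a, (c.count σ : ℝ) * w σ = (c.map w).sum := by
          rw [Finset.sum_multiset_map_count]
          symm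
          have h2 : c.toFinset ⊆ univ.image a := by
            intro σ hσ
            rw [Multiset.mem_toFinset] at hσ
            obtain ⟨i, hi⟩ := hcc.1 σ hσ
            exact Finset.mem_image.2 ⟨i, Finset.mem_univ _, hi⟩
          rw [Finset.sum_subset h2]
          · apply Finset.sum_congr rfl
            intro σ _
            rw [nsmul_eq_mul]
          · intro σ _ hσ
            rw [Multiset.mem_toFinset] at hσ
            rw [Multiset.count_eq_zero_of_notMem hσ]
            simp
        rw [h1]
        have h3 := mul_le_mul_of_nonneg_left (hc c hcc) (hz.1 c)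
        rw [mul_one] at h3
        exact h3
    _ = z.sum fun _ t => t := rfl

theorem dual (ha : ∀ i, 0 < a i ∧ a i ≤ 1) (w : ℚ → ℝ) (hw : ∀ σ, 0 ≤ w σ)
    (hc : ∀ c, IsConfig a c → (c.map w).sum ≤ 1) (J : Finset (Fin n)) :
    ∑ i ∈ J, w (a i) ≤ LP a := by
  obtain ⟨z0, hz0⟩ := frac_exists ha
  unfold LP
  refine le_csInf ⟨_, z0, hz0, rfl⟩ ?_
  rintro v ⟨z, hz, rfl⟩
  exact dual_frac hz w hw hc J

/-- weights which vanish below `s` (where four sizes `≥ s` never fit together): it is enough to
check at most three items. -/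
theorem dual3 (ha : ∀ i, 0 < a i ∧ a i ≤ 1) (s : ℚ) (hs : 1 / 4 < s) (w : ℚ → ℝ)
    (hw : ∀ σ, 0 ≤ w σ) (h0 : ∀ σ, σ < s → w σ = 0)
    (h1 : ∀ p, s ≤ p → w p ≤ 1)
    (h2 : ∀ p q, s ≤ p → p ≤ q → p + q ≤ 1 → w p + w q ≤ 1)
    (h3 : ∀ p q r, s ≤ p → p ≤ q → q ≤ r → p + q + r ≤ 1 → w p + w q + w r ≤ 1)
    (J : Finset (Fin n)) : ∑ i ∈ J, w (a i) ≤ LP a := by
  apply dual ha w hw _ J
  intro c hc
  set d := c.filter (fun σ => s ≤ σ) with hd
  have e1 : (c.map w).sum = (d.map w).sum := by
    rw [hd, ← Multiset.filter_add_not (fun σ => s ≤ σ) c, Multiset.map_add, Multiset.sum_add]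
    have h4 : ((c.filter (fun σ => ¬ s ≤ σ)).map w).sum = 0 := by
      apply Multiset.sum_eq_zero
      intro x hx
      obtain ⟨σ, hσ, rfl⟩ := Multiset.mem_map.1 hx
      exact h0 σ (not_le.1 (Multiset.mem_filter.1 hσ).2)
    rw [h4, add_zero]
    congr 2
    rw [Multiset.filter_add, Multiset.filter_filter, Multiset.filter_filter]
    simp
  have e2 : d.sum ≤ 1 := by
    have h5 : c.sum = d.sum + (c.filter (fun σ => ¬ s ≤ σ)).sum := by
      rw [hd, ← Multiset.sum_add, Multiset.filter_add_not]
    have h6 : 0 ≤ (c.filter (fun σ => ¬ s ≤ σ)).sum := by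
      apply Multiset.sum_nonneg
      intro x hx
      obtain ⟨i, hi⟩ := hc.1 x (Multiset.mem_filter.1 hx).1
      rw [← hi]
      exact (ha i).1.le
    linarith [hc.2]
  have e3 : ∀ σ ∈ d, s ≤ σ := fun σ hσ => (Multiset.mem_filter.1 hσ).2
  rw [e1]
  have e4 : (d.card : ℚ) * s ≤ d.sum := by
    have := Multiset.card_nsmul_le_sum (s := d) (a := s) e3
    rwa [nsmul_eq_mul] at this
  have e5 : d.card < 4 := by
    by_contra h
    push Not at h
    have h7 : (4 : ℚ) ≤ d.card := by exact_mod_cast h
    nlinarith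
  clear_value d
  clear hd e1
  have h2' : ∀ p q, s ≤ p → s ≤ q → p + q ≤ 1 → w p + w q ≤ 1 := by
    intro p q hp hq hpq
    rcases le_total p q with h | h
    · exact h2 p q hp h hpq
    · rw [add_comm]
      exact h2 q p hq h (by linarith)
  interval_cases hcard : d.card
  · rw [Multiset.card_eq_zero.1 hcard]
    simp
  · obtain ⟨p, rfl⟩ := Multiset.card_eq_one.1 hcard
    simp only [Multiset.map_singleton, Multiset.sum_singleton]
    exact h1 p (e3 p (by simp))
  · obtain ⟨p, q, rfl⟩ := Multiset.card_eq_two.1 hcard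
    have hp := e3 p (by simp)
    have hq := e3 q (by simp)
    simp only [Multiset.insert_eq_cons, Multiset.map_cons, Multiset.map_singleton,
      Multiset.sum_cons, Multiset.sum_singleton] at e2 ⊢
    exact h2' p q hp hq e2
  · obtain ⟨p, q, r, rfl⟩ := Multiset.card_eq_three.1 hcard
    have hp := e3 p (by simp)
    have hq := e3 q (by simp)
    have hr := e3 r (by simp)
    simp only [Multiset.insert_eq_cons, Multiset.map_cons, Multiset.map_singleton,
      Multiset.sum_cons, Multiset.sum_singleton] at e2 ⊢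
    rcases le_total p q with h | h <;> rcases le_total q r with h' | h' <;>
      rcases le_total p r with h'' | h''
    · linarith [h3 p q r hp h h' (by linarith)]
    · linarith [h3 p q r hp h h' (by linarith)]
    · linarith [h3 p r q hp h'' h' (by linarith)]
    · linarith [h3 r p q hr h'' h (by linarith)]
    · linarith [h3 q p r hq h h'' (by linarith)]
    · linarith [h3 q r p hq h' h'' (by linarith)]
    · linarith [h3 r q p hr h' h (by linarith)]
    · linarith [h3 r q p hr h' h (by linarith)]

end Vale.Agent.P302H8
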