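import Vale.Agent.P302.Pack

/-! Main result: big items in `k` bins, medium items in one more bin, small items greedily. -/

open Finset

namespace Vale.Agent.P302

variable {n : ℕ} {a : Fin n → ℚ}

theorem m_le {m k : ℕ} {s : Fin m → ℚ} (hs : Antitone s) (h3 : ∀ i, 1 / 3 < s i)
    (hw : ∀ t : ℚ, 1 / 3 < t → t ≤ 1 / 2 → ∑ i, wt t (s i) ≤ (k : ℝ)) : m ≤ 2 * k := by
  classical
  rcases Nat.eq_zero_or_pos m with h | h
  · omega
  set p : Fin m := ⟨m - 1, by omega⟩ with hp
  set t : ℚ := min (s p) (1 / 2) with ht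
  have hW := hw t (lt_min (h3 p) (by norm_num)) (min_le_right _ _)
  have w2 : ∀ i : Fin m, 1 / 2 ≤ wt t (s i) := by
    intro i
    have hi : i ≤ p := by
      rw [Fin.le_def, hp]
      show (i : ℕ) ≤ m - 1
      have := i.2
      omega
    have h1 : t ≤ s i := (min_le_left _ _).trans (hs hi)
    unfold wt
    split_ifs
    · norm_num
    · exact le_rfl
  have h5 : ∑ _i : Fin m, (1 / 2 : ℝ) ≤ ∑ i, wt t (s i) := Finset.sum_le_sum fun i _ => w2 i
  rw [Finset.sum_const, card_univ, Fintype.card_fin, nsmul_eq_mul] at h5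
  have h6 : (m : ℝ) ≤ 2 * k := by linarith
  exact_mod_cast h6

/-- The bin of the item number `p` in the sorted order. -/
def bin (k p : ℕ) : ℕ := if p < k then p else 2 * k - 1 - p

theorem bin_lt {m k p : ℕ} (hm : m ≤ 2 * k) (hp : p < m) : bin k p < k := by
  unfold bin
  split_ifs <;> omega

theorem bin_sum {m k : ℕ} {s : Fin m → ℚ} (hs : Antitone s) (h3 : ∀ i, 1 / 3 < s i)
    (h1 : ∀ i, s i ≤ 1)
    (hw : ∀ t : ℚ, 1 / 3 < t → t ≤ 1 / 2 → ∑ i, wt t (s i) ≤ (k : ℝ)) (b : ℕ) :
    ∑ p ∈ univ.filter (fun p : Fin m => bin k p = b), s p ≤ 1 := by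
  classical
  have hm := m_le hs h3 hw
  have hs0 : ∀ p, 0 ≤ s p := fun p => by have := h3 p; linarith
  by_cases hb : 2 * k - 1 - b < m ∧ b < k
  · obtain ⟨hb1, hb2⟩ := hb
    have hbm : b < m := by omega
    have hsub : (univ.filter fun p : Fin m => bin k p = b) ⊆
        {(⟨b, hbm⟩ : Fin m), ⟨2 * k - 1 - b, hb1⟩} := by
      intro p hp
      have h2 := (Finset.mem_filter.1 hp).2
      rw [Finset.mem_insert, Finset.mem_singleton, Fin.ext_iff, Fin.ext_iff]
      have h4 := p.2
      unfold bin at h2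
      split_ifs at h2
      · left; exact h2
      · right
        show (p : ℕ) = 2 * k - 1 - b
        omega
    refine (Finset.sum_le_sum_of_subset_of_nonneg hsub (fun p _ _ => hs0 p)).trans ?_
    rw [Finset.sum_pair]
    · have hq : 2 * k - 1 - (2 * k - 1 - b) = b := by omega
      have h5 := pair_le hs h3 hw ⟨2 * k - 1 - b, hb1⟩ (by show k ≤ 2 * k - 1 - b; omega)
        (by show 2 * k - 1 - b < 2 * k; omega)
        (by show 2 * k - 1 - (2 * k - 1 - b) < m; omega)
      have h6 : (⟨2 * k - 1 - (2 * k - 1 - b), by omega⟩ : Fin m) = ⟨b, hbm⟩ := Fin.ext hq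
      simp only [h6] at h5
      exact h5
    · rw [Ne, Fin.ext_iff]
      show ¬ b = 2 * k - 1 - b
      omega
  · by_cases hbm : b < m
    · have hsub : (univ.filter fun p : Fin m => bin k p = b) ⊆ {(⟨b, hbm⟩ : Fin m)} := by
        intro p hp
        have h2 := (Finset.mem_filter.1 hp).2
        rw [Finset.mem_singleton, Fin.ext_iff]
        have h4 := p.2
        unfold bin at h2
        split_ifs at h2
        · exact h2
        · exfalso
          apply hb
          omega
      refine (Finset.sum_le_sum_of_subset_of_nonneg hsub (fun p _ _ => hs0 p)).trans ?_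
      rw [Finset.sum_singleton]
      exact h1 _
    · have hsub : (univ.filter fun p : Fin m => bin k p = b) = ∅ := by
        apply Finset.filter_eq_empty_iff.2
        intro p _ h2
        have h4 := p.2
        unfold bin at h2
        split_ifs at h2
        · omega
        · apply hb
          omega
      rw [hsub, Finset.sum_empty]
      norm_num

theorem big_packs (ha : IsInstance a) {k : ℕ} (hk : LP a ≤ k) :
    ∃ g : Fin n → ℕ, (∀ i, 1 / 3 < a i → g i < k) ∧
      ∀ b, ∑ i with (1 / 3 < a i ∧ g i = b), a i ≤ 1 := by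
  classical
  obtain ⟨m, ⟨e⟩⟩ : ∃ m, Nonempty (Fin m ≃ {i : Fin n // 1 / 3 < a i}) :=
    ⟨Fintype.card {i : Fin n // 1 / 3 < a i}, ⟨(Fintype.equivFin _).symm⟩⟩
  let r : Fin m ≃ {i : Fin n // 1 / 3 < a i} := (Tuple.sort (fun j => -a (e j).1)).trans e
  let s : Fin m → ℚ := fun j => a (r j).1
  have hs : Antitone s := by
    intro i j hij
    have h := Tuple.monotone_sort (fun j => -a (e j).1) hij
    exact neg_le_neg_iff.1 h
  have h3 : ∀ i, 1 / 3 < s i := fun i => (r i).2
  have h1 : ∀ i, s i ≤ 1 := fun i => (ha _).2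
  have hw : ∀ t : ℚ, 1 / 3 < t → t ≤ 1 / 2 → ∑ i, wt t (s i) ≤ (k : ℝ) := by
    intro t ht1 ht2
    refine le_trans ?_ ((LP_ge ha (wt t) (wt_nonneg t) (fun c hc => wt_config ha ht1 ht2 hc)).trans hk)
    have e1 : ∑ i, wt t (s i) = ∑ i ∈ univ.filter (fun i => 1 / 3 < a i), wt t (a i) := by
      rw [Finset.sum_subtype (univ.filter fun i => 1 / 3 < a i) (p := fun i => 1 / 3 < a i)
        (fun x => by simp) (fun i => wt t (a i))]
      exact Equiv.sum_comp r (fun x : {i : Fin n // 1 / 3 < a i} => wt t (a x.1))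
    rw [e1]
    exact Finset.sum_le_sum_of_subset_of_nonneg (subset_univ _) (fun i _ _ => wt_nonneg _ _)
  have hm := m_le hs h3 hw
  refine ⟨fun i => if h : 1 / 3 < a i then bin k (r.symm ⟨i, h⟩) else 0, ?_, ?_⟩
  · intro i hi
    simp only [hi, dite_true]
    exact bin_lt hm (r.symm ⟨i, hi⟩).2
  · intro b
    refine le_trans (le_of_eq ?_) (bin_sum hs h3 h1 hw b)
    symm
    refine Finset.sum_bij (fun p _ => (r p).1) ?_ ?_ ?_ ?_
    · intro p hp
      have h2 := (Finset.mem_filter.1 hp).2
      rw [Finset.mem_filter]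
      refine ⟨mem_univ _, (r p).2, ?_⟩
      have h4 : 1 / 3 < a (r p).1 := (r p).2
      simp only [h4, dite_true]
      rw [Subtype.coe_eta, Equiv.symm_apply_apply]
      exact h2
    · intro p _ q _ h
      exact r.injective (Subtype.ext h)
    · intro i hi
      have h2 := (Finset.mem_filter.1 hi).2
      refine ⟨r.symm ⟨i, h2.1⟩, ?_, ?_⟩
      · rw [Finset.mem_filter]
        refine ⟨mem_univ _, ?_⟩
        have h4 := h2.2
        simp only [h2.1, dite_true] at h4
        exact h4
      · rw [Equiv.apply_symm_apply]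
    · intro p _
      rfl

theorem total_le' (ha : IsInstance a) {k : ℕ} (hk : LP a ≤ k) : ∑ i, a i ≤ (k : ℚ) := by
  have h := (total_le ha).trans hk
  exact_mod_cast h

theorem main (ha : IsInstance a) {k q : ℕ} (hq : 1 ≤ q) (hk : LP a ≤ k)
    (hmed : PacksOn a (univ.filter fun i => 1 < a i * k ∧ a i ≤ 1 / 3) q) :
    Packs a (k + q) := by
  classical
  obtain ⟨g, hg1, hg2⟩ := big_packs ha hk
  obtain ⟨f, hf⟩ := hmed
  set T : Finset (Fin n) := univ.filter fun i => 1 / 3 < a i ∨ 1 < a i * k with hT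
  set S : Finset (Fin n) := univ.filter fun i => ¬ (1 / 3 < a i ∨ 1 < a i * k) with hS
  have hST : Disjoint S T := (Finset.disjoint_filter_filter_not univ univ _).symm
  have hU : S ∪ T = univ := by
    rw [Finset.union_comm]
    exact Finset.filter_union_filter_not_eq _ _
  have hTp : PacksOn a T (k + q) := by
    refine ⟨fun i => if h : 1 / 3 < a i then ⟨g i, (hg1 i h).trans_le (Nat.le_add_right k q)⟩
      else ⟨k + f i, Nat.add_lt_add_left (f i).2 k⟩, fun b => ?_⟩
    by_cases hb : k ≤ (b : ℕ)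
    · have hb2 : (b : ℕ) - k < q := by
        have := b.2
        omega
      refine le_trans (Finset.sum_le_sum_of_subset_of_nonneg ?_ (fun i _ _ => (ha i).1.le))
        (hf ⟨(b : ℕ) - k, hb2⟩)
      intro i hi
      rw [Finset.mem_filter] at hi
      obtain ⟨hi1, hi2⟩ := hi
      have hi3 := (Finset.mem_filter.1 hi1).2
      by_cases h : 1 / 3 < a i
      · exfalso
        simp only [h, dite_true] at hi2
        have h4 := congrArg Fin.val hi2
        have h5 := hg1 i h
        simp only at h4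
        omega
      · simp only [h, dite_false] at hi2
        have h4 := congrArg Fin.val hi2
        simp only at h4
        rw [Finset.mem_filter, Finset.mem_filter]
        refine ⟨⟨mem_univ _, hi3.resolve_left h, not_lt.1 h⟩, Fin.ext ?_⟩
        show (f i : ℕ) = (b : ℕ) - k
        omega
    · refine le_trans (Finset.sum_le_sum_of_subset_of_nonneg ?_ (fun i _ _ => (ha i).1.le))
        (hg2 (b : ℕ))
      intro i hi
      rw [Finset.mem_filter] at hi ⊢
      obtain ⟨hi1, hi2⟩ := hi
      refine ⟨mem_univ _, ?_⟩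
      by_cases h : 1 / 3 < a i
      · simp only [h, dite_true] at hi2
        exact ⟨h, congrArg Fin.val hi2⟩
      · exfalso
        simp only [h, dite_false] at hi2
        have h4 := congrArg Fin.val hi2
        simp only at h4
        omega
  have h1 := add_small ha (show k + 1 ≤ k + q by omega) (total_le' ha hk) S T hST (fun x hx => by
    have h2 := (Finset.mem_filter.1 hx).2
    push Not at h2
    exact h2.2) hTp
  rw [hU] at h1
  exact packs_of_on h1

theorem main_big (ha : IsInstance a) {k : ℕ} (hk : LP a ≤ k) (h3 : ∀ i, 1 / 3 < a i) :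
    Packs a k := by
  classical
  obtain ⟨g, hg1, hg2⟩ := big_packs ha hk
  refine ⟨fun i => ⟨g i, hg1 i (h3 i)⟩, fun b => ?_⟩
  refine le_trans (Finset.sum_le_sum_of_subset_of_nonneg ?_ (fun i _ _ => (ha i).1.le))
    (hg2 (b : ℕ))
  intro i hi
  rw [Finset.mem_filter] at hi ⊢
  exact ⟨mem_univ _, h3 i, congrArg Fin.val hi.2⟩

end Vale.Agent.P302
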