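import Vale.Agent.P302.Weight

/-! Packing. -/

open Finset

namespace Vale.Agent.P302

variable {n : ℕ} {a : Fin n → ℚ}

/-- The items of `T` fit into `m` bins. -/
def PacksOn (a : Fin n → ℚ) (T : Finset (Fin n)) (m : ℕ) : Prop :=
  ∃ f : Fin n → Fin m, ∀ b : Fin m, ∑ i ∈ T with f i = b, a i ≤ 1

theorem packs_of_on {m : ℕ} (h : PacksOn a univ m) : Packs a m := h

/-- An item of size at most `1 / k` can be added to `N > k` bins if the total size is at most
`k`. -/
theorem insert_small (ha : IsInstance a) {k N : ℕ} (hN : k + 1 ≤ N) (hk : ((∑ i, a i : ℚ)) ≤ k)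
    {T : Finset (Fin n)} {x : Fin n} (hx : x ∉ T) (hs : a x * k ≤ 1) (h : PacksOn a T N) :
    PacksOn a (insert x T) N := by
  classical
  obtain ⟨f, hf⟩ := h
  have hb : ∃ b : Fin N, ∑ i ∈ T with f i = b, a i ≤ 1 - a x := by
    by_contra hcon
    push Not at hcon
    have h1 : ∑ b : Fin N, (1 - a x) < ∑ b : Fin N, ∑ i ∈ T with f i = b, a i :=
      Finset.sum_lt_sum_of_nonempty ⟨⟨0, by omega⟩, mem_univ _⟩ (fun b _ => hcon b)
    rw [Finset.sum_const, card_univ, Fintype.card_fin, nsmul_eq_mul] at h1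
    rw [Finset.sum_fiberwise_of_maps_to (t := univ) (fun i _ => mem_univ (f i))] at h1
    have h2 : ∑ i ∈ insert x T, a i ≤ ∑ i, a i :=
      Finset.sum_le_sum_of_subset_of_nonneg (subset_univ _) (fun i _ _ => (ha i).1.le)
    rw [Finset.sum_insert hx] at h2
    have h3 : ((k : ℚ) + 1) * (1 - a x) ≤ N * (1 - a x) := by
      apply mul_le_mul_of_nonneg_right _ (by linarith [(ha x).2])
      exact_mod_cast hN
    nlinarith
  obtain ⟨b, hb⟩ := hb
  refine ⟨Function.update f x b, fun b' => ?_⟩
  have h1 : ∀ b' : Fin N, ∑ i ∈ T with Function.update f x b i = b', a i =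
      ∑ i ∈ T with f i = b', a i := by
    intro b'
    refine Finset.sum_congr (Finset.filter_congr fun i hi => ?_) fun _ _ => rfl
    have : i ≠ x := fun h => hx (h ▸ hi)
    rw [Function.update_of_ne this]
  rw [Finset.filter_insert]
  split_ifs with h2
  · rw [Function.update_self] at h2
    rw [Finset.sum_insert (fun h => hx (Finset.mem_filter.1 h).1), h1, ← h2]
    linarith
  · rw [h1]
    exact hf b'

theorem add_small (ha : IsInstance a) {k N : ℕ} (hN : k + 1 ≤ N) (hk : ((∑ i, a i : ℚ)) ≤ k)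
    (S : Finset (Fin n)) (T : Finset (Fin n)) (hST : Disjoint S T)
    (hs : ∀ x ∈ S, a x * k ≤ 1) (h : PacksOn a T N) : PacksOn a (S ∪ T) N := by
  classical
  induction S using Finset.induction_on with
  | empty => rwa [Finset.empty_union]
  | insert x S hx ih =>
    rw [Finset.insert_union]
    have h1 := ih (Finset.disjoint_of_subset_left (Finset.subset_insert x S) hST)
      (fun y hy => hs y (Finset.mem_insert_of_mem hy))
    apply insert_small ha hN hk _ (hs x (Finset.mem_insert_self x S)) h1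
    rw [Finset.mem_union]
    rintro (h2 | h2)
    · exact hx h2
    · exact Finset.disjoint_left.1 hST (Finset.mem_insert_self x S) h2

/-- Packing of sorted big items: `s` is antitone, all sizes are greater than `1/3`. The weight
conditions imply that two items put in the same bin fit. -/
theorem pair_le {m k : ℕ} {s : Fin m → ℚ} (hs : Antitone s) (h3 : ∀ i, 1 / 3 < s i)
    (hw : ∀ t : ℚ, 1 / 3 < t → t ≤ 1 / 2 → ∑ i, wt t (s i) ≤ (k : ℝ))
    (p : Fin m) (hp : k ≤ (p : ℕ)) (hm : (p : ℕ) < 2 * k) (hq : 2 * k - 1 - (p : ℕ) < m) :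
    s ⟨2 * k - 1 - (p : ℕ), hq⟩ + s p ≤ 1 := by
  classical
  by_contra hcon
  push Not at hcon
  set q : Fin m := ⟨2 * k - 1 - (p : ℕ), hq⟩ with hqd
  set t : ℚ := min (s p) (1 / 2) with ht
  have ht1 : 1 / 3 < t := lt_min (h3 p) (by norm_num)
  have ht2 : t ≤ 1 / 2 := min_le_right _ _
  have hW := hw t ht1 ht2
  have hqp : q ≤ p := by
    rw [Fin.le_def, hqd]
    show 2 * k - 1 - (p : ℕ) ≤ p
    omega
  have w1 : ∀ i : Fin m, i ≤ q → wt t (s i) = 1 := by
    intro i hi
    unfold wt
    rw [if_pos]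
    have h1 : s q ≤ s i := hs hi
    have h2 : s p ≤ s q := hs hqp
    rcases le_total (s p) (1 / 2) with h4 | h4
    · rw [ht, min_eq_left h4]
      linarith
    · rw [ht, min_eq_right h4]
      by_contra hc
      linarith
  have w2 : ∀ i : Fin m, i ≤ p → 1 / 2 ≤ wt t (s i) := by
    intro i hi
    have h1 : t ≤ s i := (min_le_left _ _).trans (hs hi)
    unfold wt
    split_ifs
    · norm_num
    · exact le_rfl
  -- count
  have hsub : (univ.filter fun i : Fin m => i ≤ p) ⊆ univ := subset_univ _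
  have c1 : (univ.filter fun i : Fin m => i ≤ q).card = 2 * k - 1 - (p : ℕ) + 1 := by
    have : (univ.filter fun i : Fin m => i ≤ q) = Finset.Iic q := by
      ext i; simp
    rw [this, Fin.card_Iic]
  have c2 : (univ.filter fun i : Fin m => i ≤ p).card = (p : ℕ) + 1 := by
    have : (univ.filter fun i : Fin m => i ≤ p) = Finset.Iic p := by
      ext i; simp
    rw [this, Fin.card_Iic]
  have h5 : ∑ i : Fin m, ((if i ≤ q then (1 / 2 : ℝ) else 0) + (if i ≤ p then (1 / 2 : ℝ) else 0)) ≤
      ∑ i, wt t (s i) := by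
    refine Finset.sum_le_sum fun i _ => ?_
    by_cases h6 : i ≤ q
    · rw [if_pos h6, if_pos (h6.trans hqp), w1 i h6]
      norm_num
    · rw [if_neg h6]
      by_cases h7 : i ≤ p
      · rw [if_pos h7, zero_add]
        exact w2 i h7
      · rw [if_neg h7, add_zero]
        exact wt_nonneg _ _
  rw [Finset.sum_add_distrib, ← Finset.sum_filter, ← Finset.sum_filter, Finset.sum_const,
    Finset.sum_const, c1, c2, nsmul_eq_mul, nsmul_eq_mul] at h5
  have h8 : ((2 * k - 1 - (p : ℕ) + 1 : ℕ) : ℝ) = 2 * k - p := by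
    have : 2 * k - 1 - (p : ℕ) + 1 + p = 2 * k := by omega
    have h9 : ((2 * k - 1 - (p : ℕ) + 1 : ℕ) : ℝ) + p = 2 * k := by exact_mod_cast this
    linarith
  rw [h8] at h5
  push_cast at h5
  linarith

end Vale.Agent.P302
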