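import Vale.Agent.P302.Defs

/-! Weight functions bound the configuration LP from below. -/

open Finset

namespace Vale.Agent.P302

variable {n : ℕ} {a : Fin n → ℚ}

theorem value_ge {z : (ℚ →₀ ℕ) →₀ ℝ} (hz : Feasible a z) (w : ℚ → ℝ) (hw : ∀ s, 0 ≤ w s)
    (hc : ∀ c, IsConfig a c → ∑ s ∈ c.support, w s * (c s : ℝ) ≤ 1) :
    ∑ i, w (a i) ≤ ∑ c ∈ z.support, z c := by
  classical
  obtain ⟨h0, h1, h2⟩ := hz
  set S : Finset ℚ := univ.image a with hS
  have e1 : ∑ i, w (a i) = ∑ s ∈ S, ((univ.filter fun i => a i = s).card : ℝ) * w s := by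
    rw [← Finset.sum_fiberwise_of_maps_to (s := univ) (t := S) (g := a)
      (fun i _ => mem_image_of_mem a (mem_univ i))]
    refine Finset.sum_congr rfl fun s _ => ?_
    rw [Finset.sum_congr rfl (g := fun _ => w s) (fun i hi => by rw [(mem_filter.1 hi).2])]
    rw [Finset.sum_const, nsmul_eq_mul]
  rw [e1]
  calc ∑ s ∈ S, ((univ.filter fun i => a i = s).card : ℝ) * w s
      ≤ ∑ s ∈ S, (∑ c ∈ z.support, (c s : ℝ) * z c) * w s :=
        Finset.sum_le_sum fun s _ => mul_le_mul_of_nonneg_right (h2 s) (hw s)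
    _ = ∑ c ∈ z.support, (∑ s ∈ S, w s * (c s : ℝ)) * z c := by
        simp_rw [Finset.sum_mul]
        rw [Finset.sum_comm]
        refine Finset.sum_congr rfl fun c _ => Finset.sum_congr rfl fun s _ => ?_
        ring
    _ ≤ ∑ c ∈ z.support, z c := by
        refine Finset.sum_le_sum fun c hcz => ?_
        have h3 := h1 c hcz
        have h4 : ∑ s ∈ S, w s * (c s : ℝ) ≤ 1 := by
          refine le_trans (le_of_eq ?_) (hc c h3)
          symm
          apply Finset.sum_subset
          · intro s hs
            obtain ⟨i, hi⟩ := h3.1 s hs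
            rw [← hi]
            exact mem_image_of_mem a (mem_univ i)
          · intro s _ hs
            have : c s = 0 := by simpa using hs
            rw [this]
            simp
        calc (∑ s ∈ S, w s * (c s : ℝ)) * z c ≤ 1 * z c :=
              mul_le_mul_of_nonneg_right h4 (h0 c)
          _ = z c := one_mul _

theorem feasible_nonempty (ha : IsInstance a) :
    {v : ℝ | ∃ z : (ℚ →₀ ℕ) →₀ ℝ, Feasible a z ∧ v = ∑ c ∈ z.support, z c}.Nonempty := by
  classical
  set S : Finset ℚ := univ.image a with hS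
  set T : Finset (ℚ →₀ ℕ) := S.image fun s => Finsupp.single s 1 with hT
  let z : (ℚ →₀ ℕ) →₀ ℝ := Finsupp.onFinset T
    (fun c => if c ∈ T then (n : ℝ) else 0) (fun c hc => by
      by_contra h
      exact hc (if_neg h))
  refine ⟨_, z, ⟨fun c => ?_, fun c hc => ?_, fun s => ?_⟩, rfl⟩
  · show (0 : ℝ) ≤ if c ∈ T then (n : ℝ) else 0
    split_ifs
    · positivity
    · exact le_rfl
  · have h1 : c ∈ T := Finsupp.support_onFinset_subset hc
    obtain ⟨s, hs, rfl⟩ := mem_image.1 h1
    obtain ⟨i, _, hi⟩ := mem_image.1 hs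
    have hs' : (Finsupp.single s (1 : ℕ)).support = {s} := Finsupp.support_single s one_ne_zero
    refine ⟨fun s' h' => ?_, ?_⟩
    · rw [hs', mem_singleton] at h'
      exact ⟨i, by rw [hi, h']⟩
    · rw [hs', Finset.sum_singleton]
      simp only [Finsupp.single_eq_same, Nat.cast_one, mul_one]
      rw [← hi]
      exact (ha i).2
  · by_cases hs : s ∈ S
    · have hmem : Finsupp.single s (1 : ℕ) ∈ T := mem_image_of_mem _ hs
      have hzc : z (Finsupp.single s 1) = n := if_pos hmem
      have hn : 0 < n := by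
        obtain ⟨i, _, _⟩ := mem_image.1 hs
        exact i.pos
      have hsupp : Finsupp.single s (1 : ℕ) ∈ z.support := by
        rw [Finsupp.mem_support_iff, hzc]
        exact_mod_cast hn.ne'
      have h1 : ((univ.filter fun i => a i = s).card : ℝ) ≤ n := by
        have := Finset.card_filter_le (univ : Finset (Fin n)) (fun i => a i = s)
        rw [card_univ, Fintype.card_fin] at this
        exact_mod_cast this
      refine h1.trans ?_
      have h2 : ((Finsupp.single s (1 : ℕ) : ℚ →₀ ℕ) s : ℝ) * z (Finsupp.single s 1) = n := by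
        rw [hzc]; simp
      rw [← h2]
      refine Finset.single_le_sum (f := fun c : ℚ →₀ ℕ => (c s : ℝ) * z c) (fun c _ => ?_) hsupp
      refine mul_nonneg (Nat.cast_nonneg _) ?_
      show (0 : ℝ) ≤ if c ∈ T then (n : ℝ) else 0
      split_ifs
      · positivity
      · exact le_rfl
    · have h1 : (univ.filter fun i => a i = s) = ∅ := by
        apply Finset.filter_eq_empty_iff.2
        intro i _ hi
        exact hs (hi ▸ mem_image_of_mem a (mem_univ i))
      rw [h1, card_empty, Nat.cast_zero]
      refine Finset.sum_nonneg fun c _ => mul_nonneg (Nat.cast_nonneg _) ?_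
      show (0 : ℝ) ≤ if c ∈ T then (n : ℝ) else 0
      split_ifs
      · positivity
      · exact le_rfl

theorem LP_ge (ha : IsInstance a) (w : ℚ → ℝ) (hw : ∀ s, 0 ≤ w s)
    (hc : ∀ c, IsConfig a c → ∑ s ∈ c.support, w s * (c s : ℝ) ≤ 1) :
    ∑ i, w (a i) ≤ LP a := by
  apply le_csInf (feasible_nonempty ha)
  rintro v ⟨z, hz, rfl⟩
  exact value_ge hz w hw hc

theorem total_le (ha : IsInstance a) : ((∑ i, a i : ℚ) : ℝ) ≤ LP a := by
  have h := LP_ge ha (fun s => max (s : ℝ) 0) (fun s => le_max_right _ _) (fun c hc => by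
    have h1 : ∑ s ∈ c.support, max (s : ℝ) 0 * (c s : ℝ) =
        ((∑ s ∈ c.support, s * (c s : ℚ) : ℚ) : ℝ) := by
      push_cast
      refine Finset.sum_congr rfl fun s hs => ?_
      obtain ⟨i, hi⟩ := hc.1 s hs
      have : (0 : ℝ) ≤ s := by rw [← hi]; exact_mod_cast (ha i).1.le
      rw [max_eq_left this]
    rw [h1]
    exact_mod_cast hc.2)
  refine le_trans (le_of_eq ?_) h
  push_cast
  refine Finset.sum_congr rfl fun i _ => ?_
  have : (0 : ℝ) ≤ a i := by exact_mod_cast (ha i).1.le
  rw [max_eq_left this]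

/-- The weight function with threshold `t`. -/
noncomputable def wt (t s : ℚ) : ℝ := if 1 - t < s then 1 else if t ≤ s then 1 / 2 else 0

theorem wt_nonneg (t s : ℚ) : 0 ≤ wt t s := by
  unfold wt
  split_ifs <;> norm_num

theorem wt_config (ha : IsInstance a) {t : ℚ} (ht : 1 / 3 < t) (ht2 : t ≤ 1 / 2) {c : ℚ →₀ ℕ}
    (hc : IsConfig a c) : ∑ s ∈ c.support, wt t s * (c s : ℝ) ≤ 1 := by
  classical
  set A : ℕ := ∑ s ∈ c.support, (if 1 - t < s then c s else 0) with hA
  set B : ℕ := ∑ s ∈ c.support, (if 1 - t < s then 0 else if t ≤ s then c s else 0) with hB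
  have e1 : ∑ s ∈ c.support, wt t s * (c s : ℝ) = A + B / 2 := by
    rw [hA, hB]
    push_cast
    rw [Finset.sum_div, ← Finset.sum_add_distrib]
    refine Finset.sum_congr rfl fun s _ => ?_
    unfold wt
    split_ifs <;> push_cast <;> ring
  have hpos : ∀ s ∈ c.support, 0 < s := by
    intro s hs
    obtain ⟨i, hi⟩ := hc.1 s hs
    rw [← hi]
    exact (ha i).1
  have hterm : ∀ s ∈ c.support, (1 - t) * ((if 1 - t < s then c s else 0 : ℕ) : ℚ) +
      t * ((if 1 - t < s then 0 else if t ≤ s then c s else 0 : ℕ) : ℚ) ≤ s * (c s : ℚ) := by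
    intro s hs
    have h1 := hpos s hs
    have h2 : (0 : ℚ) ≤ c s := Nat.cast_nonneg _
    split_ifs with h3 h4
    · push_cast
      nlinarith
    · push_cast
      nlinarith
    · push_cast
      nlinarith
  have e2 : (1 - t) * (A : ℚ) + t * B = ∑ s ∈ c.support,
      ((1 - t) * ((if 1 - t < s then c s else 0 : ℕ) : ℚ) +
      t * ((if 1 - t < s then 0 else if t ≤ s then c s else 0 : ℕ) : ℚ)) := by
    rw [hA, hB, Finset.sum_add_distrib, ← Finset.mul_sum, ← Finset.mul_sum]
    push_cast
    rfl
  have h5 : (1 - t) * (A : ℚ) + t * B ≤ 1 := by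
    rw [e2]
    exact (Finset.sum_le_sum hterm).trans hc.2
  have h6 : 1 ≤ A → (1 - t) * (A : ℚ) + t * B < 1 := by
    intro hA1
    rw [e2]
    refine lt_of_lt_of_le (Finset.sum_lt_sum hterm ?_) hc.2
    by_contra hcon
    push Not at hcon
    have : A = 0 := by
      rw [hA]
      apply Finset.sum_eq_zero
      intro s hs
      by_contra h7
      have h8 : 1 - t < s := by
        by_contra h9
        exact h7 (if_neg h9)
      have h9 := hcon s hs
      rw [if_pos h8, if_pos h8] at h9
      have h10 : (0 : ℚ) < c s := by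
        have : c s ≠ 0 := by
          intro h0
          exact h7 (by rw [if_pos h8, h0])
        exact_mod_cast Nat.pos_of_ne_zero this
      push_cast at h9
      nlinarith
    omega
  rw [e1]
  have hgoal : A + B / 2 ≤ (1 : ℚ) := by
    rcases Nat.eq_zero_or_pos A with h | h
    · rw [h] at h5 ⊢
      have hB2 : B ≤ 2 := by
        by_contra hcon
        have h7 : (3 : ℚ) ≤ B := by exact_mod_cast (not_le.1 hcon)
        push_cast at h5
        nlinarith
      have h7 : (B : ℚ) ≤ 2 := by exact_mod_cast hB2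
      push_cast
      linarith
    · have h7 := h6 h
      have hB0 : (0 : ℚ) ≤ B := Nat.cast_nonneg _
      have hA1 : A ≤ 1 := by
        by_contra hcon
        have h8 : (2 : ℚ) ≤ A := by exact_mod_cast (not_le.1 hcon)
        nlinarith
      have hA1' : A = 1 := by omega
      rw [hA1'] at h7 ⊢
      have hB1 : B = 0 := by
        by_contra hcon
        have h8 : (1 : ℚ) ≤ B := by exact_mod_cast Nat.one_le_iff_ne_zero.2 hcon
        push_cast at h7
        nlinarith
      rw [hB1]
      norm_num
  have h9 := (Rat.cast_le (K := ℝ)).2 hgoal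
  push_cast at h9
  exact h9

end Vale.Agent.P302
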